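import Mathlib

/-!
# P139 / H510 : frame calculus, part 1

Quantitative symbol classes and a Taylor formula for families of functions.
-/

open scoped ContDiff
open Set

namespace Vale.Agent.P139.H510

variable {E : Type} [NormedAddCommGroup E] [NormedSpace ℝ E]

/-- `f` is a symbol of order `-δ`, up to `N` derivatives, with constant `A`. -/
def SymN (N : ℕ) (δ A : ℝ) {F : Type} [NormedAddCommGroup F] [NormedSpace ℝ F] (f : E → F) :
    Prop :=
  ContDiff ℝ N f ∧ ∀ k ≤ N, ∀ x, ‖iteratedFDeriv ℝ k f x‖ ≤ A * (1 + ‖x‖) ^ (-δ - (k : ℝ))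

section basic

variable {F : Type} [NormedAddCommGroup F] [NormedSpace ℝ F] {N : ℕ} {δ A : ℝ} {f g : E → F}

lemma SymN.nonneg (h : SymN N δ A f) : 0 ≤ A := by
  have h1 := h.2 0 (Nat.zero_le _) 0
  have h2 : (0 : ℝ) < (1 + ‖(0 : E)‖) ^ (-δ - ((0 : ℕ) : ℝ)) :=
    Real.rpow_pos_of_pos (by positivity) _
  by_contra h3
  have : A * (1 + ‖(0 : E)‖) ^ (-δ - ((0 : ℕ) : ℝ)) < 0 := mul_neg_of_neg_of_pos (not_le.1 h3) h2
  linarith [norm_nonneg (iteratedFDeriv ℝ 0 f 0)]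

lemma SymN.mono (h : SymN N δ A f) {N' : ℕ} {δ' A' : ℝ} (hN : N' ≤ N) (hδ : δ' ≤ δ) (hA : A ≤ A') :
    SymN N' δ' A' f := by
  refine ⟨h.1.of_le (by exact_mod_cast hN), fun k hk x => (h.2 k (hk.trans hN) x).trans ?_⟩
  have h0 : (1 : ℝ) ≤ 1 + ‖x‖ := by linarith [norm_nonneg x]
  have h1 : (1 + ‖x‖) ^ (-δ - (k : ℝ)) ≤ (1 + ‖x‖) ^ (-δ' - (k : ℝ)) :=
    Real.rpow_le_rpow_of_exponent_le h0 (by linarith)
  exact mul_le_mul hA h1 (Real.rpow_nonneg (by linarith) _) (h.nonneg.trans hA)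

lemma SymN.add {B : ℝ} (hf : SymN N δ A f) (hg : SymN N δ B g) :
    SymN N δ (A + B) (fun x => f x + g x) := by
  refine ⟨hf.1.add hg.1, fun k hk x => ?_⟩
  have h1 : iteratedFDeriv ℝ k (fun x => f x + g x) x
      = iteratedFDeriv ℝ k f x + iteratedFDeriv ℝ k g x :=
    iteratedFDeriv_add_apply (hf.1.contDiffAt.of_le (by exact_mod_cast hk))
      (hg.1.contDiffAt.of_le (by exact_mod_cast hk))
  rw [h1, add_mul]
  exact (norm_add_le _ _).trans (add_le_add (hf.2 k hk x) (hg.2 k hk x))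

lemma SymN.neg (hf : SymN N δ A f) : SymN N δ A (fun x => -f x) := by
  refine ⟨hf.1.neg, fun k hk x => ?_⟩
  have h1 : iteratedFDeriv ℝ k (fun x => -f x) x = -iteratedFDeriv ℝ k f x :=
    iteratedFDeriv_neg_apply
  rw [h1, norm_neg]
  exact hf.2 k hk x

lemma SymN.sub {B : ℝ} (hf : SymN N δ A f) (hg : SymN N δ B g) :
    SymN N δ (A + B) (fun x => f x - g x) := by
  have := hf.add hg.neg
  simpa [sub_eq_add_neg] using this

lemma SymN.zero (hA : 0 ≤ A) : SymN N δ A (fun _ : E => (0 : F)) := by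
  refine ⟨contDiff_const, fun k hk x => ?_⟩
  have h1 : iteratedFDeriv ℝ k (fun _ : E => (0 : F)) x = 0 := by
    simpa using congrFun (iteratedFDeriv_fun_zero (𝕜 := ℝ) (E := E) (F := F) (n := k)) x
  rw [h1, norm_zero]
  exact mul_nonneg hA (Real.rpow_nonneg (by positivity) _)

lemma SymN.sum {ι : Type} (s : Finset ι) {f : ι → E → F} {A : ι → ℝ}
    (h : ∀ i ∈ s, SymN N δ (A i) (f i)) : SymN N δ (∑ i ∈ s, A i) (fun x => ∑ i ∈ s, f i x) := by
  classical
  induction s using Finset.induction_on with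
  | empty => simpa using SymN.zero (le_refl (0 : ℝ))
  | insert i s hi ih =>
    have h1 := (h i (Finset.mem_insert_self _ _)).add
      (ih fun j hj => h j (Finset.mem_insert_of_mem hj))
    simpa [Finset.sum_insert hi] using h1

end basic

section cplx

variable {N : ℕ} {δ A : ℝ} {f g : E → ℂ}

lemma SymN.const_mul (hf : SymN N δ A f) (c : ℂ) : SymN N δ (‖c‖ * A) (fun x => c * f x) := by
  refine ⟨contDiff_const.mul hf.1, fun k hk x => ?_⟩
  have h1 : iteratedFDeriv ℝ k (fun x => c * f x) x = c • iteratedFDeriv ℝ k f x := by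
    have := iteratedFDeriv_const_smul_apply (𝕜 := ℝ) (a := c) (f := f) (x := x) (i := k)
      (hf.1.contDiffAt.of_le (by exact_mod_cast hk))
    exact this
  rw [h1, norm_smul, mul_assoc]
  exact mul_le_mul_of_nonneg_left (hf.2 k hk x) (norm_nonneg _)

lemma SymN.mul {δ' B : ℝ} (hf : SymN N δ A f) (hg : SymN N δ' B g) :
    SymN N (δ + δ') (2 ^ N * (A * B)) (fun x => f x * g x) := by
  refine ⟨hf.1.mul hg.1, fun k hk x => ?_⟩
  have h0 : (1 : ℝ) ≤ 1 + ‖x‖ := by linarith [norm_nonneg x]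
  have hA := hf.nonneg
  have hB := hg.nonneg
  have h1 := norm_iteratedFDeriv_mul_le hf.1 hg.1 x (n := k) (by exact_mod_cast hk)
  refine h1.trans ?_
  have h2 : ∀ i ∈ Finset.range (k + 1), (k.choose i : ℝ) * ‖iteratedFDeriv ℝ i f x‖
      * ‖iteratedFDeriv ℝ (k - i) g x‖ ≤
      (k.choose i : ℝ) * (A * B * (1 + ‖x‖) ^ (-(δ + δ') - (k : ℝ))) := by
    intro i hi
    have hik : i ≤ k := Nat.lt_succ_iff.1 (Finset.mem_range.1 hi)
    have h3 := hf.2 i (hik.trans hk) x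
    have h4 := hg.2 (k - i) ((Nat.sub_le _ _).trans hk) x
    have h5 : (1 + ‖x‖) ^ (-δ - (i : ℝ)) * (1 + ‖x‖) ^ (-δ' - ((k - i : ℕ) : ℝ))
        = (1 + ‖x‖) ^ (-(δ + δ') - (k : ℝ)) := by
      rw [← Real.rpow_add (by linarith)]
      congr 1
      rw [Nat.cast_sub hik]; ring
    rw [mul_assoc]
    refine mul_le_mul_of_nonneg_left ?_ (by positivity)
    calc ‖iteratedFDeriv ℝ i f x‖ * ‖iteratedFDeriv ℝ (k - i) g x‖
        ≤ (A * (1 + ‖x‖) ^ (-δ - (i : ℝ))) * (B * (1 + ‖x‖) ^ (-δ' - ((k - i : ℕ) : ℝ))) :=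
          mul_le_mul h3 h4 (norm_nonneg _) (mul_nonneg hA (Real.rpow_nonneg (by linarith) _))
      _ = A * B * ((1 + ‖x‖) ^ (-δ - (i : ℝ)) * (1 + ‖x‖) ^ (-δ' - ((k - i : ℕ) : ℝ))) := by ring
      _ = _ := by rw [h5]
  refine (Finset.sum_le_sum h2).trans ?_
  rw [← Finset.sum_mul]
  have h6 : (∑ i ∈ Finset.range (k + 1), (k.choose i : ℝ)) = 2 ^ k := by
    have := Nat.sum_range_choose k
    exact_mod_cast this
  rw [h6, ← mul_assoc]
  have h7 : (2 : ℝ) ^ k ≤ 2 ^ N := pow_le_pow_right₀ (by norm_num) hk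
  have h8 : 0 ≤ (1 + ‖x‖) ^ (-(δ + δ') - (k : ℝ)) := Real.rpow_nonneg (by linarith) _
  exact mul_le_mul_of_nonneg_right (mul_le_mul_of_nonneg_right h7 (mul_nonneg hA hB)) h8

lemma SymN.pdir (hf : SymN (N + 1) δ A f) (ξ : E) :
    SymN N (δ + 1) (A * ‖ξ‖) (fun x => fderiv ℝ f x ξ) := by
  have hd : ContDiff ℝ N (fun x => fderiv ℝ f x) := hf.1.fderiv_right (by norm_cast)
  refine ⟨hd.clm_apply contDiff_const, fun k hk x => ?_⟩
  have h1 : iteratedFDeriv ℝ k (fun x => fderiv ℝ f x ξ) x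
      = (ContinuousLinearMap.apply ℝ ℂ ξ).compContinuousMultilinearMap
        (iteratedFDeriv ℝ k (fderiv ℝ f) x) := by
    exact ContinuousLinearMap.iteratedFDeriv_comp_left (ContinuousLinearMap.apply ℝ ℂ ξ)
      (f := fderiv ℝ f) (hd.contDiffAt) (by exact_mod_cast hk)
  rw [h1]
  refine (ContinuousLinearMap.norm_compContinuousMultilinearMap_le _ _).trans ?_
  have h2 : ‖(ContinuousLinearMap.apply ℝ ℂ ξ : (E →L[ℝ] ℂ) →L[ℝ] ℂ)‖ ≤ ‖ξ‖ := by
    refine ContinuousLinearMap.opNorm_le_bound _ (norm_nonneg _) fun φ => ?_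
    rw [ContinuousLinearMap.apply_apply, mul_comm]
    exact φ.le_opNorm ξ
  rw [norm_iteratedFDeriv_fderiv]
  have h3 := hf.2 (k + 1) (by omega) x
  calc _ ≤ ‖ξ‖ * (A * (1 + ‖x‖) ^ (-δ - ((k + 1 : ℕ) : ℝ))) :=
        mul_le_mul h2 h3 (norm_nonneg _) (norm_nonneg _)
    _ = A * ‖ξ‖ * (1 + ‖x‖) ^ (-(δ + 1) - (k : ℝ)) := by
        rw [show -(δ + 1) - (k : ℝ) = -δ - ((k + 1 : ℕ) : ℝ) by push_cast; ring]; ring

lemma SymN.eul (hf : SymN (N + 1) δ A f) :
    SymN N δ (A * (N + 1)) (fun x => fderiv ℝ f x x) := by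
  have hd : ContDiff ℝ N (fun x => fderiv ℝ f x) := hf.1.fderiv_right (by norm_cast)
  have hA := hf.nonneg
  refine ⟨hd.clm_apply contDiff_id, fun k hk x => ?_⟩
  have h0 : (1 : ℝ) ≤ 1 + ‖x‖ := by linarith [norm_nonneg x]
  have h1 := norm_iteratedFDeriv_clm_apply hd (contDiff_id (n := (N : ℕ∞ω))) x (n := k)
    (by exact_mod_cast hk)
  refine h1.trans ?_
  have hP : 0 ≤ (1 + ‖x‖) ^ (-δ - (k : ℝ)) := Real.rpow_nonneg (by linarith) _
  have h2 : ∀ i ∈ Finset.range (k + 1), (k.choose i : ℝ) * ‖iteratedFDeriv ℝ i (fderiv ℝ f) x‖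
      * ‖iteratedFDeriv ℝ (k - i) (id : E → E) x‖ ≤
      if i = k then A * (1 + ‖x‖) ^ (-δ - (k : ℝ)) else
        if i + 1 = k then k * (A * (1 + ‖x‖) ^ (-δ - (k : ℝ))) else 0 := by
    intro i hi
    have hik : i ≤ k := Nat.lt_succ_iff.1 (Finset.mem_range.1 hi)
    rw [norm_iteratedFDeriv_fderiv]
    have h3 := hf.2 (i + 1) (by omega) x
    split_ifs with h4 h5
    · subst h4
      rw [Nat.choose_self, Nat.sub_self, norm_iteratedFDeriv_zero, Nat.cast_one, one_mul]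
      calc ‖iteratedFDeriv ℝ (i + 1) f x‖ * ‖id x‖
          ≤ (A * (1 + ‖x‖) ^ (-δ - ((i + 1 : ℕ) : ℝ))) * (1 + ‖x‖) := by
            refine mul_le_mul h3 ?_ (norm_nonneg _) (mul_nonneg hA (Real.rpow_nonneg (by linarith) _))
            simp
        _ = A * ((1 + ‖x‖) ^ (-δ - ((i + 1 : ℕ) : ℝ)) * (1 + ‖x‖) ^ (1 : ℝ)) := by
            rw [Real.rpow_one]; ring
        _ = A * (1 + ‖x‖) ^ (-δ - (i : ℝ)) := by
            rw [← Real.rpow_add (by linarith)]
            congr 2; push_cast; ring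
    · subst h5
      have h6 : i + 1 - i = 1 := by omega
      rw [h6]
      have h7 : ‖iteratedFDeriv ℝ 1 (id : E → E) x‖ ≤ 1 := by
        rw [norm_iteratedFDeriv_one, fderiv_id]
        exact ContinuousLinearMap.norm_id_le
      have h8 : ((i + 1).choose i : ℝ) = ((i + 1 : ℕ) : ℝ) := by
        rw [Nat.choose_succ_self_right]
      rw [h8]
      calc ((i + 1 : ℕ) : ℝ) * ‖iteratedFDeriv ℝ (i + 1) f x‖ * ‖iteratedFDeriv ℝ 1 (id : E → E) x‖
          ≤ ((i + 1 : ℕ) : ℝ) * (A * (1 + ‖x‖) ^ (-δ - ((i + 1 : ℕ) : ℝ))) * 1 := by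
            refine mul_le_mul ?_ h7 (norm_nonneg _) ?_
            · exact mul_le_mul_of_nonneg_left h3 (by positivity)
            · exact mul_nonneg (by positivity) (mul_nonneg hA (Real.rpow_nonneg (by linarith) _))
        _ = _ := by rw [mul_one]
    · have h6 : ∃ j, k - i = j + 2 := ⟨k - i - 2, by omega⟩
      obtain ⟨j, hj⟩ := h6
      have h7 : ‖iteratedFDeriv ℝ (k - i) (id : E → E) x‖ = 0 := by
        rw [hj]
        have e1 : ‖iteratedFDeriv ℝ (j + 2) (id : E → E) x‖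
            = ‖iteratedFDeriv ℝ (j + 1) (fderiv ℝ (id : E → E)) x‖ := by
          rw [norm_iteratedFDeriv_fderiv]
        rw [e1]
        have e2 : fderiv ℝ (id : E → E) = fun _ => ContinuousLinearMap.id ℝ E := by
          funext y; exact fderiv_id
        rw [e2, iteratedFDeriv_const_of_ne (by omega)]
        simp
      rw [h7, mul_zero]
  refine (Finset.sum_le_sum h2).trans ?_
  rw [Finset.sum_ite, Finset.sum_ite]
  have e1 : (Finset.range (k + 1)).filter (fun i => i = k) = {k} := by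
    ext i; simp only [Finset.mem_filter, Finset.mem_range, Finset.mem_singleton]; omega
  have hP' : 0 ≤ A * (1 + ‖x‖) ^ (-δ - (k : ℝ)) := mul_nonneg hA hP
  have e2 : (∑ i ∈ ((Finset.range (k + 1)).filter (fun i => ¬ i = k)).filter (fun i => i + 1 = k),
      (k : ℝ) * (A * (1 + ‖x‖) ^ (-δ - (k : ℝ)))) ≤ k * (A * (1 + ‖x‖) ^ (-δ - (k : ℝ))) := by
    rw [Finset.sum_const, nsmul_eq_mul]
    have : (((Finset.range (k + 1)).filter (fun i => ¬ i = k)).filter (fun i => i + 1 = k)).card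
        ≤ 1 := by
      rw [Finset.card_le_one]
      intro a ha b hb
      have h1 := (Finset.mem_filter.1 ha).2
      have h2 := (Finset.mem_filter.1 hb).2
      omega
    have h3 : ((((Finset.range (k + 1)).filter (fun i => ¬ i = k)).filter
      (fun i => i + 1 = k)).card : ℝ) ≤ 1 := by exact_mod_cast this
    have h4 : 0 ≤ (k : ℝ) * (A * (1 + ‖x‖) ^ (-δ - (k : ℝ))) := mul_nonneg (by positivity) hP'
    nlinarith
  rw [e1, Finset.sum_singleton]
  simp only [Finset.sum_const_zero, add_zero]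
  have h9 : (k : ℝ) ≤ N := by exact_mod_cast hk
  calc A * (1 + ‖x‖) ^ (-δ - (k : ℝ)) + _
      ≤ A * (1 + ‖x‖) ^ (-δ - (k : ℝ)) + k * (A * (1 + ‖x‖) ^ (-δ - (k : ℝ))) :=
        add_le_add le_rfl e2
    _ ≤ A * (1 + ‖x‖) ^ (-δ - (k : ℝ)) + N * (A * (1 + ‖x‖) ^ (-δ - (k : ℝ))) := by
        gcongr
    _ = _ := by ring

end cplx

end Vale.Agent.P139.H510
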