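import Vale.Agent.P139.H510.RC1

/-!
# P139 / H510 : frame calculus, part 2

Affine changes of variables, cut-offs, differentiation in a parameter.
-/

open scoped ContDiff
open Set

namespace Vale.Agent.P139.H510

variable {E : Type} [NormedAddCommGroup E] [NormedSpace ℝ E]

lemma iteratedFDeriv_affine {F : Type} [NormedAddCommGroup F] [NormedSpace ℝ F] {N : ℕ}
    {f : E → F} (hf : ContDiff ℝ N f) (c : ℝ) (b : E) {k : ℕ} (hk : k ≤ N) (x : E) :
    iteratedFDeriv ℝ k (fun y => f (c • (y - b))) x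
      = c ^ k • iteratedFDeriv ℝ k f (c • (x - b)) := by
  have h1 : iteratedFDeriv ℝ k (fun y => f (c • (y - b))) x
      = iteratedFDeriv ℝ k (fun y => f (c • y)) (x - b) :=
    iteratedFDeriv_comp_sub (f := fun y => f (c • y)) k b x
  rw [h1]
  have h2 := iteratedFDeriv_comp_const_smul (f := f) (i := k) c
    (hf.of_le (by exact_mod_cast hk))
  rw [h2]

/-- Constant for the affine change of variables. -/
noncomputable def Caff (N : ℕ) (δ : ℝ) : ℝ := 3 ^ N * (6 : ℝ) ^ (δ + N)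

lemma Caff_pos (N : ℕ) (δ : ℝ) : 0 < Caff N δ := by
  unfold Caff
  exact mul_pos (by positivity) (Real.rpow_pos_of_pos (by norm_num) _)

lemma SymN.affine {F : Type} [NormedAddCommGroup F] [NormedSpace ℝ F] {N : ℕ} {δ A : ℝ}
    {f : E → F} (hf : SymN N δ A f) (hδ : 0 ≤ δ) {c : ℝ} (hc : 1 / 3 ≤ c) (hc' : c ≤ 3) {b : E}
    (hb : ‖b‖ ≤ 1) : SymN N δ (Caff N δ * A) (fun y => f (c • (y - b))) := by
  have hA := hf.nonneg
  refine ⟨hf.1.comp ((contDiff_id.sub contDiff_const).const_smul c), fun k hk x => ?_⟩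
  rw [iteratedFDeriv_affine hf.1 c b hk x, norm_smul, norm_pow, Real.norm_eq_abs,
    abs_of_nonneg (by linarith : (0 : ℝ) ≤ c)]
  have h1 := hf.2 k hk (c • (x - b))
  have h0 : (1 : ℝ) ≤ 1 + ‖x‖ := by linarith [norm_nonneg x]
  have h2 : (1 + ‖x‖) / 6 ≤ 1 + ‖c • (x - b)‖ := by
    rw [norm_smul, Real.norm_eq_abs, abs_of_nonneg (by linarith : (0 : ℝ) ≤ c)]
    have h3 : ‖x‖ - 1 ≤ ‖x - b‖ := by
      have := norm_sub_norm_le x b
      linarith
    have h4 : (1 / 3) * ‖x - b‖ ≤ c * ‖x - b‖ := mul_le_mul_of_nonneg_right hc (norm_nonneg _)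
    have h5 := norm_nonneg (x - b)
    have h6 := norm_nonneg x
    nlinarith
  have h3 : (1 + ‖c • (x - b)‖) ^ (-δ - (k : ℝ)) ≤ ((1 + ‖x‖) / 6) ^ (-δ - (k : ℝ)) := by
    refine Real.rpow_le_rpow_of_nonpos (by linarith) h2 ?_
    have : (0 : ℝ) ≤ k := by positivity
    linarith
  have h4 : ((1 + ‖x‖) / 6) ^ (-δ - (k : ℝ)) = (6 : ℝ) ^ (δ + k) * (1 + ‖x‖) ^ (-δ - (k : ℝ)) := by
    rw [Real.div_rpow (by linarith) (by norm_num), div_eq_mul_inv, ← Real.rpow_neg (by norm_num),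
      mul_comm]
    congr 2
    ring
  have h5 : (6 : ℝ) ^ (δ + k) ≤ (6 : ℝ) ^ (δ + N) := by
    refine Real.rpow_le_rpow_of_exponent_le (by norm_num) ?_
    have : (k : ℝ) ≤ N := by exact_mod_cast hk
    linarith
  have h6 : c ^ k ≤ 3 ^ N := by
    calc c ^ k ≤ 3 ^ k := pow_le_pow_left₀ (by linarith) hc' k
      _ ≤ 3 ^ N := pow_le_pow_right₀ (by norm_num) hk
  have hP : 0 ≤ (1 + ‖x‖) ^ (-δ - (k : ℝ)) := Real.rpow_nonneg (by linarith) _
  calc c ^ k * ‖iteratedFDeriv ℝ k f (c • (x - b))‖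
      ≤ 3 ^ N * (A * ((6 : ℝ) ^ (δ + N) * (1 + ‖x‖) ^ (-δ - (k : ℝ)))) := by
        refine mul_le_mul h6 (h1.trans ?_) (norm_nonneg _) (by positivity)
        refine mul_le_mul_of_nonneg_left (h3.trans ?_) hA
        rw [h4]
        exact mul_le_mul_of_nonneg_right h5 hP
    _ = _ := by unfold Caff; ring

/-- `f` is a cut-off: `C^N`, derivatives bounded by `A`, vanishing outside the ball of
radius `ρ`. -/
def CutN (N : ℕ) (ρ A : ℝ) (f : E → ℂ) : Prop :=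
  ContDiff ℝ N f ∧ (∀ k ≤ N, ∀ x, ‖iteratedFDeriv ℝ k f x‖ ≤ A) ∧ ∀ x, ρ < ‖x‖ → f x = 0

lemma CutN.nonneg {N : ℕ} {ρ A : ℝ} {f : E → ℂ} (hf : CutN N ρ A f) : 0 ≤ A :=
  (norm_nonneg _).trans (hf.2.1 0 (Nat.zero_le _) 0)

lemma CutN.iteratedFDeriv_eq_zero {N : ℕ} {ρ A : ℝ} {f : E → ℂ} (hf : CutN N ρ A f) (k : ℕ)
    {x : E} (hx : ρ < ‖x‖) : iteratedFDeriv ℝ k f x = 0 := by
  have h1 : f =ᶠ[nhds x] fun _ => (0 : ℂ) := by
    have : {y : E | ρ < ‖y‖} ∈ nhds x := (isOpen_lt continuous_const continuous_norm).mem_nhds hx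
    filter_upwards [this] with y hy
    exact hf.2.2 y hy
  have h2 := h1.iteratedFDeriv ℝ k
  have h3 := h2.self_of_nhds
  rw [h3]
  exact congrFun (iteratedFDeriv_fun_zero (𝕜 := ℝ) (E := E) (F := ℂ) (n := k)) x

lemma CutN.pdir {N : ℕ} {ρ A : ℝ} {f : E → ℂ} (hf : CutN (N + 1) ρ A f) (ξ : E) :
    CutN N ρ (A * ‖ξ‖) (fun x => fderiv ℝ f x ξ) := by
  have hd : ContDiff ℝ N (fun x => fderiv ℝ f x) := hf.1.fderiv_right (by norm_cast)
  refine ⟨hd.clm_apply contDiff_const, fun k hk x => ?_, fun x hx => ?_⟩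
  · have h1 : iteratedFDeriv ℝ k (fun x => fderiv ℝ f x ξ) x
        = (ContinuousLinearMap.apply ℝ ℂ ξ).compContinuousMultilinearMap
          (iteratedFDeriv ℝ k (fderiv ℝ f) x) := by
      exact ContinuousLinearMap.iteratedFDeriv_comp_left (ContinuousLinearMap.apply ℝ ℂ ξ)
        (f := fderiv ℝ f) (hd.contDiffAt) (by exact_mod_cast hk)
    rw [h1]
    refine (ContinuousLinearMap.norm_compContinuousMultilinearMap_le _ _).trans ?_
    have h2 : ‖(ContinuousLinearMap.apply ℝ ℂ ξ : (E →L[ℝ] ℂ) →L[ℝ] ℂ)‖ ≤ ‖ξ‖ := by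
      refine ContinuousLinearMap.opNorm_le_bound _ (norm_nonneg _) fun φ => ?_
      rw [ContinuousLinearMap.apply_apply, mul_comm]
      exact φ.le_opNorm ξ
    rw [norm_iteratedFDeriv_fderiv, mul_comm A]
    exact mul_le_mul h2 (hf.2.1 (k + 1) (by omega) x) (norm_nonneg _) (norm_nonneg _)
  · have h1 := hf.iteratedFDeriv_eq_zero 1 hx
    have h2 : ‖fderiv ℝ f x‖ = 0 := by
      rw [← norm_iteratedFDeriv_one, h1, norm_zero]
    show fderiv ℝ f x ξ = 0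
    rw [norm_eq_zero.1 h2]
    rfl

/-- A cut-off at scale `1/lam` is a symbol of order `0`, uniformly in `lam ≤ 1`. -/
lemma CutN.scaled {N : ℕ} {ρ A : ℝ} {f : E → ℂ} (hf : CutN N ρ A f) (hρ : 0 ≤ ρ) {lam : ℝ}
    (hl : 0 < lam) (hl1 : lam ≤ 1) {b : E} (hb : ‖b‖ ≤ 1) :
    SymN N 0 ((2 + ρ) ^ N * A) (fun y => f (lam • (y - b))) := by
  have hA := hf.nonneg
  refine ⟨hf.1.comp ((contDiff_id.sub contDiff_const).const_smul lam), fun k hk x => ?_⟩
  have h0 : (1 : ℝ) ≤ 1 + ‖x‖ := by linarith [norm_nonneg x]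
  have hP : 0 ≤ (1 + ‖x‖) ^ (-0 - (k : ℝ)) := Real.rpow_nonneg (by linarith) _
  rw [iteratedFDeriv_affine hf.1 lam b hk x, norm_smul, norm_pow, Real.norm_eq_abs,
    abs_of_nonneg hl.le]
  by_cases hx : ρ < ‖lam • (x - b)‖
  · rw [hf.iteratedFDeriv_eq_zero k hx, norm_zero, mul_zero]
    positivity
  · have h1 : lam * (1 + ‖x‖) ≤ 2 + ρ := by
      have h2 : ‖lam • (x - b)‖ ≤ ρ := not_lt.1 hx
      rw [norm_smul, Real.norm_eq_abs, abs_of_nonneg hl.le] at h2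
      have h3 : ‖x‖ - 1 ≤ ‖x - b‖ := by
        have := norm_sub_norm_le x b
        linarith
      nlinarith
    have h2 : lam ^ k ≤ (2 + ρ) ^ k * (1 + ‖x‖) ^ (-0 - (k : ℝ)) := by
      have e1 : (1 + ‖x‖) ^ (-0 - (k : ℝ)) = ((1 + ‖x‖) ^ k)⁻¹ := by
        rw [neg_zero, zero_sub, Real.rpow_neg (by linarith), Real.rpow_natCast]
      rw [e1, ← div_eq_mul_inv, le_div_iff₀ (by positivity), ← mul_pow]
      exact pow_le_pow_left₀ (by positivity) h1 k
    have h3 : (2 + ρ) ^ k ≤ (2 + ρ) ^ N := pow_le_pow_right₀ (by linarith) hk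
    calc lam ^ k * ‖iteratedFDeriv ℝ k f (lam • (x - b))‖
        ≤ ((2 + ρ) ^ k * (1 + ‖x‖) ^ (-0 - (k : ℝ))) * A :=
          mul_le_mul h2 (hf.2.1 k hk _) (norm_nonneg _) (by positivity)
      _ ≤ ((2 + ρ) ^ N * (1 + ‖x‖) ^ (-0 - (k : ℝ))) * A := by gcongr
      _ = _ := by ring

/-! ### Differentiation in a parameter -/

/-- Derivative in the first variable. -/
noncomputable def dt {F : Type} [NormedAddCommGroup F] [NormedSpace ℝ F] (Φ : ℝ × E → F)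
    (p : ℝ × E) : F := fderiv ℝ Φ p (1, 0)

lemma contDiff_dt {F : Type} [NormedAddCommGroup F] [NormedSpace ℝ F] {Φ : ℝ × E → F}
    (hΦ : ContDiff ℝ ∞ Φ) : ContDiff ℝ ∞ (dt Φ) := by
  have h1 : ContDiff ℝ ∞ (fderiv ℝ Φ) := hΦ.fderiv_right (by norm_cast)
  exact h1.clm_apply contDiff_const

lemma hasDerivAt_dt {F : Type} [NormedAddCommGroup F] [NormedSpace ℝ F] {Φ : ℝ × E → F}
    (hΦ : Differentiable ℝ Φ) (t : ℝ) (y : E) :
    HasDerivAt (fun s => Φ (s, y)) (dt Φ (t, y)) t := by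
  have h1 : HasFDerivAt Φ (fderiv ℝ Φ (t, y)) (t, y) := (hΦ (t, y)).hasFDerivAt
  have h2 : HasDerivAt (fun s : ℝ => ((s, y) : ℝ × E)) (1, 0) t :=
    (hasDerivAt_id t).prodMk (hasDerivAt_const t y)
  exact h1.comp_hasDerivAt t h2

/-- Derivative in the second variable. -/
noncomputable def dy {F : Type} [NormedAddCommGroup F] [NormedSpace ℝ F] (Φ : ℝ × E → F)
    (p : ℝ × E) : E →L[ℝ] F := (fderiv ℝ Φ p).comp (ContinuousLinearMap.inr ℝ ℝ E)

lemma contDiff_dy {F : Type} [NormedAddCommGroup F] [NormedSpace ℝ F] {Φ : ℝ × E → F}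
    (hΦ : ContDiff ℝ ∞ Φ) : ContDiff ℝ ∞ (dy Φ) := by
  have h1 : ContDiff ℝ ∞ (fderiv ℝ Φ) := hΦ.fderiv_right (by norm_cast)
  exact h1.clm_comp contDiff_const

lemma fderiv_slice {F : Type} [NormedAddCommGroup F] [NormedSpace ℝ F] {Φ : ℝ × E → F}
    (hΦ : Differentiable ℝ Φ) (t : ℝ) (y : E) :
    fderiv ℝ (fun z => Φ (t, z)) y = dy Φ (t, y) := by
  have h1 : HasFDerivAt Φ (fderiv ℝ Φ (t, y)) (t, y) := (hΦ (t, y)).hasFDerivAt
  have h2 : HasFDerivAt (fun z : E => ((t, z) : ℝ × E)) (ContinuousLinearMap.inr ℝ ℝ E) y := by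
    have := (hasFDerivAt_const t y).prodMk (hasFDerivAt_id (𝕜 := ℝ) y)
    exact this
  exact (h1.comp y h2).fderiv

lemma dt_dy {F : Type} [NormedAddCommGroup F] [NormedSpace ℝ F] {Φ : ℝ × E → F}
    (hΦ : ContDiff ℝ ∞ Φ) (p : ℝ × E) : dt (dy Φ) p = dy (dt Φ) p := by
  have h1 : ContDiff ℝ ∞ (fderiv ℝ Φ) := hΦ.fderiv_right (by norm_cast)
  have h1d : HasFDerivAt (fderiv ℝ Φ) (fderiv ℝ (fderiv ℝ Φ) p) p :=
    ((h1.differentiable (by simp)) p).hasFDerivAt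
  have hsym : IsSymmSndFDerivAt ℝ Φ p := (hΦ.contDiffAt (x := p)).isSymmSndFDerivAt (by
    simp only [minSmoothness_of_isRCLikeNormedField]; exact WithTop.coe_le_coe.2 le_top)
  have e1 : HasFDerivAt (dy Φ) ((((ContinuousLinearMap.compL ℝ E (ℝ × E) F).flip
      (ContinuousLinearMap.inr ℝ ℝ E))).comp (fderiv ℝ (fderiv ℝ Φ) p)) p :=
    (((ContinuousLinearMap.compL ℝ E (ℝ × E) F).flip
      (ContinuousLinearMap.inr ℝ ℝ E))).hasFDerivAt.comp p h1d
  have e2 : HasFDerivAt (dt Φ) ((ContinuousLinearMap.apply ℝ F ((1, 0) : ℝ × E)).comp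
      (fderiv ℝ (fderiv ℝ Φ) p)) p :=
    (ContinuousLinearMap.apply ℝ F ((1, 0) : ℝ × E)).hasFDerivAt.comp p h1d
  ext v
  rw [dt, dy, e1.fderiv, e2.fderiv]
  show fderiv ℝ (fderiv ℝ Φ) p (1, 0) (0, v) = fderiv ℝ (fderiv ℝ Φ) p (0, v) (1, 0)
  exact hsym.eq _ _

/-- Commutation of the derivative in the parameter with all derivatives in `y`. -/
theorem hasDerivAt_iteratedFDeriv (k : ℕ) : ∀ {F : Type} [NormedAddCommGroup F] [NormedSpace ℝ F]
    {Φ : ℝ × E → F}, ContDiff ℝ ∞ Φ → ∀ (t : ℝ) (y : E),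
    HasDerivAt (fun s => iteratedFDeriv ℝ k (fun z => Φ (s, z)) y)
      (iteratedFDeriv ℝ k (fun z => dt Φ (t, z)) y) t := by
  induction k with
  | zero =>
    intro F _ _ Φ hΦ t y
    have h1 := hasDerivAt_dt (hΦ.differentiable (by simp)) t y
    have e : ∀ (f : E → F), iteratedFDeriv ℝ 0 f y
        = (continuousMultilinearCurryFin0 ℝ E F).symm (f y) := by
      intro f; rfl
    simp only [e]
    exact ((continuousMultilinearCurryFin0 ℝ E F).symm.toContinuousLinearEquiv.hasFDerivAt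
      (x := Φ (t, y))).comp_hasDerivAt t h1
  | succ k ih =>
    intro F _ _ Φ hΦ t y
    have h1 := ih (contDiff_dy hΦ) t y
    have e : ∀ (s : ℝ), iteratedFDeriv ℝ (k + 1) (fun z => Φ (s, z)) y
        = (continuousMultilinearCurryRightEquiv' ℝ k E F).symm
          (iteratedFDeriv ℝ k (fun z => dy Φ (s, z)) y) := by
      intro s
      rw [iteratedFDeriv_succ_eq_comp_right]
      show (continuousMultilinearCurryRightEquiv' ℝ k E F).symm
        (iteratedFDeriv ℝ k (fun z => fderiv ℝ (fun z => Φ (s, z)) z) y) = _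
      congr 2
      funext z
      exact fderiv_slice (hΦ.differentiable (by simp)) s z
    have e' : iteratedFDeriv ℝ (k + 1) (fun z => dt Φ (t, z)) y
        = (continuousMultilinearCurryRightEquiv' ℝ k E F).symm
          (iteratedFDeriv ℝ k (fun z => dt (dy Φ) (t, z)) y) := by
      rw [iteratedFDeriv_succ_eq_comp_right]
      show (continuousMultilinearCurryRightEquiv' ℝ k E F).symm
        (iteratedFDeriv ℝ k (fun z => fderiv ℝ (fun z => dt Φ (t, z)) z) y) = _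
      congr 2
      funext z
      rw [fderiv_slice ((contDiff_dt hΦ).differentiable (by simp)) t z, dt_dy hΦ]
    simp only [e, e']
    exact ((continuousMultilinearCurryRightEquiv' ℝ k E F).symm.toContinuousLinearEquiv.hasFDerivAt
      (x := iteratedFDeriv ℝ k (fun z => dy Φ (t, z)) y)).comp_hasDerivAt t h1

/-- Second order Taylor estimate for a vector valued function on `[0,1]`. -/
lemma taylor_two {F : Type} [NormedAddCommGroup F] [NormedSpace ℝ F] {f f' f'' : ℝ → F} {C : ℝ}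
    (h1 : ∀ t ∈ Icc (0 : ℝ) 1, HasDerivAt f (f' t) t)
    (h2 : ∀ t ∈ Icc (0 : ℝ) 1, HasDerivAt f' (f'' t) t)
    (h3 : ∀ t ∈ Icc (0 : ℝ) 1, ‖f'' t‖ ≤ C) : ‖f 1 - f 0 - f' 0‖ ≤ C := by
  have hC : 0 ≤ C := (norm_nonneg _).trans (h3 0 (by simp))
  have a1 : ∀ t ∈ Icc (0 : ℝ) 1, ‖f' t - f' 0‖ ≤ C := by
    intro t ht
    have := (convex_Icc (0 : ℝ) 1).norm_image_sub_le_of_norm_hasDerivWithin_le
      (f := f') (f' := f'') (fun x hx => (h2 x hx).hasDerivWithinAt) h3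
      (left_mem_Icc.2 zero_le_one) ht
    refine this.trans ?_
    rw [sub_zero, Real.norm_eq_abs, abs_of_nonneg ht.1]
    nlinarith [ht.2]
  have a2 := (convex_Icc (0 : ℝ) 1).norm_image_sub_le_of_norm_hasDerivWithin_le
      (f := fun t => f t - t • f' 0) (f' := fun t => f' t - f' 0) (C := C)
      (fun x hx => ?_) a1 (left_mem_Icc.2 zero_le_one) (right_mem_Icc.2 zero_le_one)
  · simp only [one_smul, zero_smul, sub_zero, norm_one, mul_one] at a2
    have e : f 1 - f' 0 - f 0 = f 1 - f 0 - f' 0 := by abel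
    rwa [e] at a2
  · have b1 := (h1 x hx).sub ((hasDerivAt_id x).smul_const (f' 0))
    simp only [one_smul] at b1
    exact b1.hasDerivWithinAt

/-- Taylor estimate with symbol bounds for families of functions. -/
theorem symN_taylor {Φ : ℝ × E → ℂ} (hΦ : ContDiff ℝ ∞ Φ) {N : ℕ} {δ A : ℝ}
    (hb : ∀ t ∈ Icc (0 : ℝ) 1, SymN N δ A (fun y => dt (dt Φ) (t, y))) :
    SymN N δ A (fun y => Φ (1, y) - Φ (0, y) - dt Φ (0, y)) := by
  have c1 : ∀ (Ψ : ℝ × E → ℂ) (t : ℝ), ContDiff ℝ ∞ Ψ → ContDiff ℝ ∞ (fun y => Ψ (t, y)) := by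
    intro Ψ t hΨ
    exact hΨ.comp (contDiff_const.prodMk contDiff_id)
  have hc := contDiff_dt hΦ
  refine ⟨(((c1 Φ 1 hΦ).sub (c1 Φ 0 hΦ)).sub (c1 _ 0 hc)).of_le (by exact_mod_cast le_top),
    fun k hk x => ?_⟩
  have hk' : ((k : ℕ) : ℕ∞ω) ≤ (∞ : ℕ∞ω) := by exact_mod_cast le_top
  have e : iteratedFDeriv ℝ k (fun y => Φ (1, y) - Φ (0, y) - dt Φ (0, y)) x
      = iteratedFDeriv ℝ k (fun y => Φ (1, y)) x - iteratedFDeriv ℝ k (fun y => Φ (0, y)) x
        - iteratedFDeriv ℝ k (fun y => dt Φ (0, y)) x := by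
    have a1 := iteratedFDeriv_sub_apply (𝕜 := ℝ) (i := k) (x := x)
      (f := fun y => Φ (1, y) - Φ (0, y)) (g := fun y => dt Φ (0, y))
      (((c1 Φ 1 hΦ).sub (c1 Φ 0 hΦ)).contDiffAt.of_le hk') ((c1 _ 0 hc).contDiffAt.of_le hk')
    have a2 := iteratedFDeriv_sub_apply (𝕜 := ℝ) (i := k) (x := x)
      (f := fun y => Φ (1, y)) (g := fun y => Φ (0, y))
      ((c1 Φ 1 hΦ).contDiffAt.of_le hk') ((c1 Φ 0 hΦ).contDiffAt.of_le hk')
    have a1' : iteratedFDeriv ℝ k (fun y => Φ (1, y) - Φ (0, y) - dt Φ (0, y)) x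
      = iteratedFDeriv ℝ k (fun y => Φ (1, y) - Φ (0, y)) x
        - iteratedFDeriv ℝ k (fun y => dt Φ (0, y)) x := a1
    have a2' : iteratedFDeriv ℝ k (fun y => Φ (1, y) - Φ (0, y)) x
      = iteratedFDeriv ℝ k (fun y => Φ (1, y)) x - iteratedFDeriv ℝ k (fun y => Φ (0, y)) x := a2
    rw [a1', a2']
  rw [e]
  exact taylor_two (f := fun s => iteratedFDeriv ℝ k (fun y => Φ (s, y)) x)
    (f' := fun s => iteratedFDeriv ℝ k (fun y => dt Φ (s, y)) x)
    (f'' := fun s => iteratedFDeriv ℝ k (fun y => dt (dt Φ) (s, y)) x)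
    (fun t _ => hasDerivAt_iteratedFDeriv k hΦ t x)
    (fun t _ => hasDerivAt_iteratedFDeriv k hc t x)
    (fun t ht => (hb t ht).2 k hk x)

end Vale.Agent.P139.H510
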