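import Vale.Agent.P139.H510.RC2

/-!
# P139 / H510 : frame calculus, part 3

The curve `t ↦ e^{κ t} f(lam (y - t ξ)) g(e^{-tμ}(y - t ξ))` and its first two derivatives.
-/

open scoped ContDiff
open Set

namespace Vale.Agent.P139.H510

variable {E : Type} [NormedAddCommGroup E] [NormedSpace ℝ E]

/-- The curve of frames applied to a product of a cut-off `f` and a symbol `g`. -/
noncomputable def BB (κ : ℂ) (lam μ : ℝ) (ξ : E) (f g : E → ℂ) (p : ℝ × E) : ℂ :=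
  Complex.exp (κ * p.1) * f (lam • (p.2 - p.1 • ξ)) * g (Real.exp (-(p.1 * μ)) • (p.2 - p.1 • ξ))

lemma contDiff_BB {κ : ℂ} {lam μ : ℝ} {ξ : E} {f g : E → ℂ} (hf : ContDiff ℝ ∞ f)
    (hg : ContDiff ℝ ∞ g) : ContDiff ℝ ∞ (BB κ lam μ ξ f g) := by
  have h1 : ContDiff ℝ ∞ (fun p : ℝ × E => p.2 - p.1 • ξ) :=
    contDiff_snd.sub (contDiff_fst.smul contDiff_const)
  have h2 : ContDiff ℝ ∞ (fun p : ℝ × E => ((p.1 : ℝ) : ℂ)) :=
    Complex.ofRealCLM.contDiff.comp contDiff_fst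
  have h3 : ContDiff ℝ ∞ (fun p : ℝ × E => Complex.exp (κ * p.1)) :=
    Complex.contDiff_exp.comp (contDiff_const.mul h2)
  have h4 : ContDiff ℝ ∞ (fun p : ℝ × E => Real.exp (-(p.1 * μ))) :=
    Real.contDiff_exp.comp (contDiff_fst.mul contDiff_const).neg
  exact (h3.mul (hf.comp (contDiff_const.smul h1))).mul (hg.comp (h4.smul h1))

lemma contDiff_pdir {f : E → ℂ} (hf : ContDiff ℝ ∞ f) (ξ : E) :
    ContDiff ℝ ∞ (fun x => fderiv ℝ f x ξ) :=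
  (hf.fderiv_right (by norm_cast)).clm_apply contDiff_const

lemma contDiff_eul {f : E → ℂ} (hf : ContDiff ℝ ∞ f) :
    ContDiff ℝ ∞ (fun x => fderiv ℝ f x x) :=
  (hf.fderiv_right (by norm_cast)).clm_apply contDiff_id

theorem dt_BB {κ : ℂ} {lam μ : ℝ} {ξ : E} {f g : E → ℂ} (hf : ContDiff ℝ ∞ f)
    (hg : ContDiff ℝ ∞ g) (p : ℝ × E) :
    dt (BB κ lam μ ξ f g) p = κ * BB κ lam μ ξ f g p
      - lam * BB κ lam μ ξ (fun x => fderiv ℝ f x ξ) g p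
      - μ * BB κ lam μ ξ f (fun x => fderiv ℝ g x x) p
      - BB (κ - μ) lam μ ξ f (fun x => fderiv ℝ g x ξ) p := by
  obtain ⟨t, y⟩ := p
  have h0 := hasDerivAt_dt ((contDiff_BB (κ := κ) (lam := lam) (μ := μ) (ξ := ξ) hf hg).differentiable
    (by simp)) t y
  refine h0.unique ?_
  have hz : HasDerivAt (fun s : ℝ => y - s • ξ) (-ξ) t := by
    simpa using ((hasDerivAt_id t).smul_const ξ).const_sub y
  have hk : HasDerivAt (fun s : ℝ => Complex.exp (κ * s)) (Complex.exp (κ * t) * κ) t := by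
    have h1 : HasDerivAt (fun s : ℝ => κ * (s : ℂ)) κ t := by
      simpa using (Complex.ofRealCLM.hasDerivAt (x := t)).const_mul κ
    exact h1.cexp
  have hfd : HasDerivAt (fun s : ℝ => f (lam • (y - s • ξ)))
      (fderiv ℝ f (lam • (y - t • ξ)) (lam • (-ξ))) t := by
    have h1 : HasDerivAt (fun s : ℝ => lam • (y - s • ξ)) (lam • (-ξ)) t := hz.const_smul lam
    exact ((hf.differentiable (by simp)) _).hasFDerivAt.comp_hasDerivAt t h1
  have he : HasDerivAt (fun s : ℝ => Real.exp (-(s * μ))) (Real.exp (-(t * μ)) * (-μ)) t := by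
    have h1 : HasDerivAt (fun s : ℝ => -(s * μ)) (-μ) t := by
      have h2 := ((hasDerivAt_id t).mul_const μ).fun_neg
      simpa using h2
    exact h1.exp
  have hgd : HasDerivAt (fun s : ℝ => g (Real.exp (-(s * μ)) • (y - s • ξ)))
      (fderiv ℝ g (Real.exp (-(t * μ)) • (y - t • ξ))
        (Real.exp (-(t * μ)) • (-ξ) + (Real.exp (-(t * μ)) * (-μ)) • (y - t • ξ))) t := by
    have h1 := he.smul hz
    exact ((hg.differentiable (by simp)) _).hasFDerivAt.comp_hasDerivAt t h1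
  have hm := (hk.mul hfd).mul hgd
  refine hm.congr_deriv ?_
  simp only [BB, map_add, map_smul, map_neg, Complex.real_smul, Complex.ofReal_mul,
    Complex.ofReal_neg, Complex.ofReal_exp, Pi.mul_apply]
  have e1 : Complex.exp ((κ - μ) * t) = Complex.exp (κ * t) * Complex.exp (-((t : ℂ) * μ)) := by
    rw [← Complex.exp_add]; ring_nf
  rw [e1]
  ring

/-- Uniform symbol bounds on the curve. -/
theorem symN_BB {N : ℕ} {δ ρ : ℝ} (hδ : 0 ≤ δ) (hρ : 0 ≤ ρ) : ∃ C : ℝ, 0 < C ∧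
    ∀ (κ : ℂ) (lam μ : ℝ) (ξ : E) (f g : E → ℂ) (A B : ℝ), CutN N ρ A f → SymN N δ B g →
    ‖κ‖ ≤ 5 → 0 < lam → lam ≤ 1 → |μ| ≤ 1 → ‖ξ‖ ≤ 1 → ∀ t ∈ Icc (0 : ℝ) 1,
    SymN N δ (C * (A * B)) (fun y => BB κ lam μ ξ f g (t, y)) := by
  refine ⟨Real.exp 5 * (2 ^ N * ((2 + ρ) ^ N * Caff N δ)), ?_, ?_⟩
  · have := Caff_pos N δ
    positivity
  intro κ lam μ ξ f g A B hf hg hκ hl hl1 hμ hξ t ht
  have htξ : ‖t • ξ‖ ≤ 1 := by
    rw [norm_smul, Real.norm_eq_abs, abs_of_nonneg ht.1]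
    nlinarith [ht.2, norm_nonneg ξ, ht.1]
  have h1 := hf.scaled hρ hl hl1 htξ
  have htμ : |t * μ| ≤ 1 := by
    rw [abs_mul, abs_of_nonneg ht.1]
    nlinarith [ht.2, abs_nonneg μ, ht.1]
  have hc : 1 / 3 ≤ Real.exp (-(t * μ)) := by
    have h2 : Real.exp (-1) ≤ Real.exp (-(t * μ)) := Real.exp_le_exp.2 (by
      have := (abs_le.1 htμ).2; linarith)
    have h3 : 1 / 3 ≤ Real.exp (-1) := by
      rw [Real.exp_neg, one_div]
      apply inv_anti₀ (Real.exp_pos 1)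
      exact (Real.exp_one_lt_d9.trans (by norm_num)).le
    linarith
  have hc' : Real.exp (-(t * μ)) ≤ 3 := by
    have h2 : Real.exp (-(t * μ)) ≤ Real.exp 1 := Real.exp_le_exp.2 (by
      have := (abs_le.1 htμ).1; linarith)
    exact h2.trans (Real.exp_one_lt_d9.trans (by norm_num)).le
  have h2 := hg.affine hδ hc hc' htξ
  have h3 := (h1.mul h2).const_mul (Complex.exp (κ * t))
  rw [zero_add] at h3
  have hfun : (fun y => BB κ lam μ ξ f g (t, y)) = fun y => Complex.exp (κ * t) *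
      (f (lam • (y - t • ξ)) * g (Real.exp (-(t * μ)) • (y - t • ξ))) := by
    funext y
    simp only [BB]
    ring
  rw [hfun]
  refine h3.mono le_rfl le_rfl ?_
  have hA := hf.nonneg
  have hB := hg.nonneg
  have hexp : ‖Complex.exp (κ * t)‖ ≤ Real.exp 5 := by
    rw [Complex.norm_exp]
    refine Real.exp_le_exp.2 ?_
    refine (Complex.re_le_norm _).trans ?_
    rw [norm_mul, Complex.norm_real, Real.norm_eq_abs, abs_of_nonneg ht.1]
    nlinarith [ht.2, norm_nonneg κ, ht.1]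
  have hCa := Caff_pos N δ
  calc ‖Complex.exp (κ * t)‖ * (2 ^ N * ((2 + ρ) ^ N * A * (Caff N δ * B)))
      ≤ Real.exp 5 * (2 ^ N * ((2 + ρ) ^ N * A * (Caff N δ * B))) :=
        mul_le_mul_of_nonneg_right hexp (by positivity)
    _ = _ := by ring

/-- First derivative in `t`: one factor of the size of the frame parameters. -/
theorem symN_dt_BB {N : ℕ} {δ ρ : ℝ} (hδ : 0 ≤ δ) (hρ : 0 ≤ ρ) : ∃ C : ℝ, 0 < C ∧
    ∀ (κ : ℂ) (lam μ P : ℝ) (ξ : E) (f g : E → ℂ) (A B : ℝ), ContDiff ℝ ∞ f → ContDiff ℝ ∞ g →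
    CutN (N + 1) ρ A f → SymN (N + 1) δ B g → ‖κ‖ ≤ 4 → 0 < lam → lam ≤ 1 → |μ| ≤ 1 → ‖ξ‖ ≤ 1 →
    |μ| ≤ P → ‖ξ‖ ≤ P → ∀ t ∈ Icc (0 : ℝ) 1,
    SymN N δ (C * (A * B) * (‖κ‖ + P)) (fun y => dt (BB κ lam μ ξ f g) (t, y)) := by
  obtain ⟨C, hC, hb⟩ := symN_BB (E := E) (N := N) hδ hρ
  refine ⟨C * (N + 3), by positivity, ?_⟩
  intro κ lam μ P ξ f g A B hcf hcg hf hg hκ hl hl1 hμ hξ hμP hξP t ht
  have hA := hf.nonneg
  have hB := hg.nonneg
  have hf' : CutN N ρ A f :=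
    ⟨hf.1.of_le (by norm_cast; omega), fun k hk x => hf.2.1 k (by omega) x, hf.2.2⟩
  have hg' : SymN N δ B g := hg.mono (by omega) le_rfl le_rfl
  have hκμ : ‖κ - μ‖ ≤ 5 := by
    refine (norm_sub_le _ _).trans ?_
    rw [Complex.norm_real, Real.norm_eq_abs]
    linarith
  have b1 := (hb κ lam μ ξ f g A B hf' hg' (by linarith) hl hl1 hμ hξ t ht).const_mul κ
  have b2 := (hb κ lam μ ξ _ g _ B (hf.pdir ξ) hg' (by linarith) hl hl1 hμ hξ t ht).const_mul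
    (lam : ℂ)
  have b3 := (hb κ lam μ ξ f _ A _ hf' hg.eul (by linarith) hl hl1 hμ hξ t ht).const_mul (μ : ℂ)
  have b4 := (hb (κ - μ) lam μ ξ f _ A _ hf' ((hg.pdir ξ).mono le_rfl (by linarith : δ ≤ δ + 1) le_rfl)
    hκμ hl hl1 hμ hξ t ht)
  have b := ((b1.sub b2).sub b3).sub b4
  have hfun : (fun y => dt (BB κ lam μ ξ f g) (t, y)) = fun y => κ * BB κ lam μ ξ f g (t, y)
      - lam * BB κ lam μ ξ (fun x => fderiv ℝ f x ξ) g (t, y)
      - μ * BB κ lam μ ξ f (fun x => fderiv ℝ g x x) (t, y)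
      - BB (κ - μ) lam μ ξ f (fun x => fderiv ℝ g x ξ) (t, y) := by
    funext y
    exact dt_BB hcf hcg (t, y)
  rw [hfun]
  refine b.mono le_rfl le_rfl ?_
  rw [Complex.norm_real, Complex.norm_real, Real.norm_eq_abs, Real.norm_eq_abs, abs_of_pos hl]
  have hP : 0 ≤ P := (abs_nonneg _).trans hμP
  have hCAB : 0 ≤ C * (A * B) := by positivity
  have e1 : lam * (C * (A * ‖ξ‖ * B)) ≤ C * (A * B) * P := by
    calc lam * (C * (A * ‖ξ‖ * B)) ≤ 1 * (C * (A * ‖ξ‖ * B)) :=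
          mul_le_mul_of_nonneg_right hl1 (by positivity)
      _ = C * (A * B) * ‖ξ‖ := by ring
      _ ≤ _ := mul_le_mul_of_nonneg_left hξP hCAB
  have e2 : |μ| * (C * (A * (B * (N + 1)))) ≤ C * (A * B) * ((N + 1) * P) := by
    calc |μ| * (C * (A * (B * (N + 1)))) = C * (A * B) * ((N + 1) * |μ|) := by ring
      _ ≤ _ := mul_le_mul_of_nonneg_left (mul_le_mul_of_nonneg_left hμP (by positivity)) hCAB
  have e3 : C * (A * (B * ‖ξ‖)) ≤ C * (A * B) * P := by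
    calc C * (A * (B * ‖ξ‖)) = C * (A * B) * ‖ξ‖ := by ring
      _ ≤ _ := mul_le_mul_of_nonneg_left hξP hCAB
  have e4 : 0 ≤ C * (A * B) * ((N : ℝ) * ‖κ‖ + 2 * ‖κ‖) := by positivity
  nlinarith [e1, e2, e3, e4]

/-- Second derivative in `t`: quadratic in the size of the frame parameters. -/
theorem symN_dt2_BB {N : ℕ} {δ ρ : ℝ} (hδ : 0 ≤ δ) (hρ : 0 ≤ ρ) : ∃ C : ℝ, 0 < C ∧
    ∀ (κ : ℂ) (lam μ P : ℝ) (ξ : E) (f g : E → ℂ) (A B : ℝ), ContDiff ℝ ∞ f → ContDiff ℝ ∞ g →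
    CutN (N + 2) ρ A f → SymN (N + 2) δ B g → ‖κ‖ ≤ 3 → 0 < lam → lam ≤ 1 → |μ| ≤ 1 → ‖ξ‖ ≤ 1 →
    |μ| ≤ P → ‖ξ‖ ≤ P → ‖κ‖ ≤ P → ∀ t ∈ Icc (0 : ℝ) 1,
    SymN N δ (C * (A * B) * P ^ 2) (fun y => dt (dt (BB κ lam μ ξ f g)) (t, y)) := by
  obtain ⟨C, hC, hb⟩ := symN_dt_BB (E := E) (N := N) hδ hρ
  refine ⟨C * (2 * N + 13), by positivity, ?_⟩
  intro κ lam μ P ξ f g A B hcf hcg hf hg hκ hl hl1 hμ hξ hμP hξP hκP t ht
  have hA := hf.nonneg
  have hB := hg.nonneg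
  have hP : 0 ≤ P := (abs_nonneg _).trans hμP
  have hf' : CutN (N + 1) ρ A f :=
    ⟨hf.1.of_le (by norm_cast; omega), fun k hk x => hf.2.1 k (by omega) x, hf.2.2⟩
  have hg' : SymN (N + 1) δ B g := hg.mono (by omega) le_rfl le_rfl
  have hκμ : ‖κ - μ‖ ≤ 4 := by
    refine (norm_sub_le _ _).trans ?_
    rw [Complex.norm_real, Real.norm_eq_abs]
    linarith
  have hκμP : ‖κ - μ‖ ≤ 2 * P := by
    refine (norm_sub_le _ _).trans ?_
    rw [Complex.norm_real, Real.norm_eq_abs]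
    linarith
  have b1 := (hb κ lam μ P ξ f g A B hcf hcg hf' hg' (by linarith) hl hl1 hμ hξ hμP hξP t
    ht).const_mul κ
  have b2 := (hb κ lam μ P ξ _ g _ B (contDiff_pdir hcf ξ) hcg (hf.pdir ξ) hg' (by linarith) hl hl1
    hμ hξ hμP hξP t ht).const_mul (lam : ℂ)
  have b3 := (hb κ lam μ P ξ f _ A _ hcf (contDiff_eul hcg) hf' hg.eul (by linarith) hl hl1 hμ hξ
    hμP hξP t ht).const_mul (μ : ℂ)
  have b4 := (hb (κ - μ) lam μ P ξ f _ A _ hcf (contDiff_pdir hcg ξ) hf'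
    ((hg.pdir ξ).mono le_rfl (by linarith : δ ≤ δ + 1) le_rfl) hκμ hl hl1 hμ hξ hμP hξP t ht)
  have b := ((b1.sub b2).sub b3).sub b4
  have hd1 : dt (BB κ lam μ ξ f g) = fun p => κ * BB κ lam μ ξ f g p
      - lam * BB κ lam μ ξ (fun x => fderiv ℝ f x ξ) g p
      - μ * BB κ lam μ ξ f (fun x => fderiv ℝ g x x) p
      - BB (κ - μ) lam μ ξ f (fun x => fderiv ℝ g x ξ) p := by
    funext p
    exact dt_BB hcf hcg p
  have hfun : (fun y => dt (dt (BB κ lam μ ξ f g)) (t, y)) = fun y =>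
      κ * dt (BB κ lam μ ξ f g) (t, y)
      - lam * dt (BB κ lam μ ξ (fun x => fderiv ℝ f x ξ) g) (t, y)
      - μ * dt (BB κ lam μ ξ f (fun x => fderiv ℝ g x x)) (t, y)
      - dt (BB (κ - μ) lam μ ξ f (fun x => fderiv ℝ g x ξ)) (t, y) := by
    funext y
    have c1 := hasDerivAt_dt ((contDiff_dt (contDiff_BB (κ := κ) (lam := lam) (μ := μ) (ξ := ξ) hcf
      hcg)).differentiable (by simp)) t y
    refine c1.unique ?_
    rw [hd1]
    have a1 := hasDerivAt_dt ((contDiff_BB (κ := κ) (lam := lam) (μ := μ) (ξ := ξ) hcf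
      hcg).differentiable (by simp)) t y
    have a2 := hasDerivAt_dt ((contDiff_BB (κ := κ) (lam := lam) (μ := μ) (ξ := ξ)
      (contDiff_pdir hcf ξ) hcg).differentiable (by simp)) t y
    have a3 := hasDerivAt_dt ((contDiff_BB (κ := κ) (lam := lam) (μ := μ) (ξ := ξ) hcf
      (contDiff_eul hcg)).differentiable (by simp)) t y
    have a4 := hasDerivAt_dt ((contDiff_BB (κ := κ - μ) (lam := lam) (μ := μ) (ξ := ξ) hcf
      (contDiff_pdir hcg ξ)).differentiable (by simp)) t y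
    have a := (((a1.const_mul κ).sub (a2.const_mul (lam : ℂ))).sub
      (a3.const_mul (μ : ℂ))).sub a4
    rw [hd1] at a
    exact a
  rw [hfun]
  refine b.mono le_rfl le_rfl ?_
  rw [Complex.norm_real, Complex.norm_real, Real.norm_eq_abs, Real.norm_eq_abs, abs_of_pos hl]
  have hCAB : 0 ≤ C * (A * B) := by positivity
  have hκ0 := norm_nonneg κ
  have e0 : ‖κ‖ * (C * (A * B) * (‖κ‖ + P)) ≤ C * (A * B) * (2 * P ^ 2) := by
    have : ‖κ‖ * (‖κ‖ + P) ≤ 2 * P ^ 2 := by nlinarith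
    calc _ = C * (A * B) * (‖κ‖ * (‖κ‖ + P)) := by ring
      _ ≤ _ := mul_le_mul_of_nonneg_left this hCAB
  have e1 : lam * (C * (A * ‖ξ‖ * B) * (‖κ‖ + P)) ≤ C * (A * B) * (2 * P ^ 2) := by
    have h1 : ‖ξ‖ * (‖κ‖ + P) ≤ 2 * P ^ 2 := by nlinarith [norm_nonneg ξ]
    calc lam * (C * (A * ‖ξ‖ * B) * (‖κ‖ + P)) ≤ 1 * (C * (A * ‖ξ‖ * B) * (‖κ‖ + P)) :=
          mul_le_mul_of_nonneg_right hl1 (by positivity)
      _ = C * (A * B) * (‖ξ‖ * (‖κ‖ + P)) := by ring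
      _ ≤ _ := mul_le_mul_of_nonneg_left h1 hCAB
  have e2 : |μ| * (C * (A * (B * ((N + 1 : ℕ) + 1))) * (‖κ‖ + P)) ≤
      C * (A * B) * ((N + 2) * (2 * P ^ 2)) := by
    have h1 : |μ| * (‖κ‖ + P) ≤ 2 * P ^ 2 := by nlinarith [abs_nonneg μ]
    calc |μ| * (C * (A * (B * ((N + 1 : ℕ) + 1))) * (‖κ‖ + P))
        = C * (A * B) * ((N + 2) * (|μ| * (‖κ‖ + P))) := by push_cast; ring
      _ ≤ _ := mul_le_mul_of_nonneg_left (mul_le_mul_of_nonneg_left h1 (by positivity)) hCAB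
  have e3 : C * (A * (B * ‖ξ‖)) * (‖κ - μ‖ + P) ≤ C * (A * B) * (3 * P ^ 2) := by
    have h1 : ‖ξ‖ * (‖κ - μ‖ + P) ≤ 3 * P ^ 2 := by nlinarith [norm_nonneg ξ, norm_nonneg (κ - μ)]
    calc C * (A * (B * ‖ξ‖)) * (‖κ - μ‖ + P) = C * (A * B) * (‖ξ‖ * (‖κ - μ‖ + P)) := by ring
      _ ≤ _ := mul_le_mul_of_nonneg_left h1 hCAB
  have e4 : 0 ≤ C * (A * B) * P ^ 2 := by positivity
  nlinarith [e0, e1, e2, e3, e4]

end Vale.Agent.P139.H510
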