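import Vale.Agent.P139.H510.RC3
import Vale.Agent.P139.BU.Core

/-!
# P139 / H510 : frame calculus, part 4

The change of frame absorbs a tangent direction up to a quadratic error (pointwise symbol bounds).
-/

open scoped ContDiff ComplexConjugate
open Set

namespace Vale.Agent.P139.H510

open Vale.Agent.P139.BU

variable {d : ℕ}

/-- Tangent vector of the symmetry group at `Q`. -/
noncomputable def tang (a μ ψ : ℝ) (ξ : E d) (Q : E d → ℂ) (y : E d) : ℂ :=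
  (Complex.I * ψ - 2 * a * μ) * Q y - μ * eul Q y - fderiv ℝ Q y ξ

/-- The error of a change of frame `(μ, ψ, ξ)` at scale `lam` with cut-off `χ`. -/
noncomputable def frameErr (a lam μ ψ : ℝ) (ξ : E d) (χ Q : E d → ℂ) (y : E d) : ℂ :=
  χ (lam • y) * (Q y + tang a μ ψ ξ Q y)
    - Complex.exp (Complex.I * ψ - 2 * a * μ) * (χ (lam • (y - ξ)) * Q (Real.exp (-μ) • (y - ξ)))

theorem frameErr_eq {a lam μ ψ : ℝ} {ξ : E d} {χ Q : E d → ℂ} (hχ : ContDiff ℝ ∞ χ)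
    (hQ : ContDiff ℝ ∞ Q) (y : E d) :
    frameErr a lam μ ψ ξ χ Q y =
      -(BB (Complex.I * ψ - 2 * a * μ) lam μ ξ χ Q (1, y)
        - BB (Complex.I * ψ - 2 * a * μ) lam μ ξ χ Q (0, y)
        - dt (BB (Complex.I * ψ - 2 * a * μ) lam μ ξ χ Q) (0, y))
      + lam * ((fun x => fderiv ℝ χ x ξ) (lam • y) * Q y) := by
  rw [dt_BB hχ hQ]
  simp only [BB, frameErr, tang, eul, Complex.ofReal_one, Complex.ofReal_zero, mul_one, mul_zero,
    Complex.exp_zero, one_smul, zero_smul, sub_zero, zero_mul, neg_zero, Real.exp_zero, one_mul]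
  ring

/-- Symbol bound for the frame error. -/
theorem symN_frameErr {a : ℝ} (ha : 0 ≤ a) (ha1 : 2 * a ≤ 1) {ρ : ℝ} (hρ : 0 ≤ ρ)
    {χ Q : E d → ℂ} (hχ : ContDiff ℝ ∞ χ) (hQ : ContDiff ℝ ∞ Q) {N : ℕ} {A B : ℝ}
    (hA : CutN (N + 2) ρ A χ) (hB : SymN (N + 2) (2 * a) B Q) :
    ∃ C : ℝ, 0 < C ∧ ∀ (lam μ ψ : ℝ) (ξ : E d) (P : ℝ), 0 < lam → lam ≤ 1 →
      |μ| + |ψ| ≤ P → ‖ξ‖ ≤ P → P ≤ 1 →
      SymN N (2 * a) (C * (P ^ 2 + lam * P)) (frameErr a lam μ ψ ξ χ Q) := by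
  obtain ⟨C1, hC1, h1⟩ := symN_dt2_BB (E := E d) (N := N) (δ := 2 * a) (by linarith) hρ
  have hA0 := hA.nonneg
  have hB0 := hB.nonneg
  refine ⟨C1 * (A * B) + 2 ^ N * ((2 + ρ) ^ N * (A * B)) + 1, by positivity, ?_⟩
  intro lam μ ψ ξ P hl hl1 hP hξP hP1
  have hμP : |μ| ≤ P := by linarith [abs_nonneg ψ]
  have hP0 : 0 ≤ P := (norm_nonneg _).trans hξP
  have hκ : ‖(Complex.I * ψ - 2 * a * μ : ℂ)‖ ≤ P := by
    refine (norm_sub_le _ _).trans ?_
    have e1 : ‖(Complex.I * ψ : ℂ)‖ = |ψ| := by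
      rw [norm_mul, Complex.norm_I, one_mul, Complex.norm_real, Real.norm_eq_abs]
    have e2 : ‖(2 * a * μ : ℂ)‖ ≤ |μ| := by
      rw [norm_mul, norm_mul, Complex.norm_real, Complex.norm_real, Real.norm_eq_abs,
        Real.norm_eq_abs, abs_of_nonneg ha]
      have : ‖(2 : ℂ)‖ = 2 := by simp
      rw [this]
      nlinarith [abs_nonneg μ]
    linarith
  have c1 : SymN N (2 * a) (C1 * (A * B) * P ^ 2) (fun y =>
      BB (Complex.I * ψ - 2 * a * μ) lam μ ξ χ Q (1, y)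
        - BB (Complex.I * ψ - 2 * a * μ) lam μ ξ χ Q (0, y)
        - dt (BB (Complex.I * ψ - 2 * a * μ) lam μ ξ χ Q) (0, y)) := by
    refine symN_taylor (contDiff_BB hχ hQ) fun t ht => ?_
    exact h1 _ lam μ P ξ χ Q A B hχ hQ hA hB (hκ.trans (by linarith)) hl hl1 (by linarith)
      (by linarith) hμP hξP hκ t ht
  have hA' : CutN N ρ (A * ‖ξ‖) (fun x => fderiv ℝ χ x ξ) := by
    have h3 : CutN (N + 1) ρ A χ :=
      ⟨hA.1.of_le (by norm_cast; omega), fun k hk x => hA.2.1 k (by omega) x, hA.2.2⟩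
    exact h3.pdir ξ
  have c2 : SymN N (2 * a) (‖(lam : ℂ)‖ * (2 ^ N * ((2 + ρ) ^ N * (A * ‖ξ‖) * B)))
      (fun y => lam * ((fun x => fderiv ℝ χ x ξ) (lam • y) * Q y)) := by
    have h4 := hA'.scaled hρ hl hl1 (b := 0) (by simp)
    simp only [sub_zero] at h4
    have h5 := h4.mul (hB.mono (by omega : N ≤ N + 2) le_rfl le_rfl)
    rw [zero_add] at h5
    exact h5.const_mul _
  have c3 := c1.neg.add c2
  have hfun : frameErr a lam μ ψ ξ χ Q = fun y =>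
      -(BB (Complex.I * ψ - 2 * a * μ) lam μ ξ χ Q (1, y)
        - BB (Complex.I * ψ - 2 * a * μ) lam μ ξ χ Q (0, y)
        - dt (BB (Complex.I * ψ - 2 * a * μ) lam μ ξ χ Q) (0, y))
      + lam * ((fun x => fderiv ℝ χ x ξ) (lam • y) * Q y) := by
    funext y
    exact frameErr_eq hχ hQ y
  rw [hfun]
  refine c3.mono le_rfl le_rfl ?_
  rw [Complex.norm_real, Real.norm_eq_abs, abs_of_pos hl]
  have hAB : 0 ≤ A * B := mul_nonneg hA0 hB0
  have e1 : lam * (2 ^ N * ((2 + ρ) ^ N * (A * ‖ξ‖) * B)) ≤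
      2 ^ N * ((2 + ρ) ^ N * (A * B)) * (lam * P) := by
    calc lam * (2 ^ N * ((2 + ρ) ^ N * (A * ‖ξ‖) * B))
        = 2 ^ N * ((2 + ρ) ^ N * (A * B)) * (lam * ‖ξ‖) := by ring
      _ ≤ _ := mul_le_mul_of_nonneg_left (mul_le_mul_of_nonneg_left hξP hl.le) (by positivity)
  have e2 : 0 ≤ C1 * (A * B) * (lam * P) := by positivity
  have e3 : 0 ≤ 2 ^ N * ((2 + ρ) ^ N * (A * B)) * P ^ 2 := by positivity
  have e4 : 0 ≤ P ^ 2 + lam * P := by positivity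
  nlinarith [e1, e2, e3, e4]

/-- The support of the frame error. -/
theorem frameErr_eq_zero {a lam μ ψ : ℝ} {ξ : E d} {χ Q : E d → ℂ} {ρ : ℝ}
    (hχ : ∀ x, ρ < ‖x‖ → χ x = 0) (hl : 0 < lam) (hl1 : lam ≤ 1) (hξ : ‖ξ‖ ≤ 1) {y : E d}
    (hy : ρ + 1 < ‖lam • y‖) : frameErr a lam μ ψ ξ χ Q y = 0 := by
  have h1 : χ (lam • y) = 0 := hχ _ (by linarith)
  have h2 : χ (lam • (y - ξ)) = 0 := by
    refine hχ _ ?_
    have h3 : ‖lam • y‖ ≤ ‖lam • (y - ξ)‖ + ‖lam • ξ‖ := by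
      have : lam • y = lam • (y - ξ) + lam • ξ := by rw [smul_sub]; abel
      calc ‖lam • y‖ = ‖lam • (y - ξ) + lam • ξ‖ := by rw [← this]
        _ ≤ _ := norm_add_le _ _
    have h4 : ‖lam • ξ‖ ≤ 1 := by
      rw [norm_smul, Real.norm_eq_abs, abs_of_pos hl]
      nlinarith [norm_nonneg ξ]
    linarith
  rw [frameErr, h1, h2]
  ring

/-- The tangent vectors in terms of the symmetry modes. -/
theorem tang_eq {m : ℕ} {w : ℝ} {Q : E d → ℂ} (al ga : ℝ) (be : Fin d → ℝ) (y : E d) :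
    tang (aa m) (-ga / 2) (al - ga * w) (-(WithLp.toLp 2 be : E d)) Q y
      = al * phaseMode Q y + ∑ j, be j * pd j Q y + ga * timeMode m w Q y := by
  have h1 : fderiv ℝ Q y (-(WithLp.toLp 2 be : E d)) = -∑ j, (be j : ℂ) * pd j Q y := by
    rw [map_neg]
    congr 1
    have h2 : (WithLp.toLp 2 be : E d) = ∑ j, be j • EuclideanSpace.single j (1 : ℝ) := by
      ext i
      simp [Pi.single_apply]
    rw [h2, map_sum]
    refine Finset.sum_congr rfl fun j _ => ?_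
    rw [map_smul, Complex.real_smul, pd]
  rw [tang, h1, phaseMode, timeMode]
  push_cast
  ring

end Vale.Agent.P139.H510
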