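import Vale.Agent.P139.H510.RC4
import Vale.Agent.P139.H579.Frame
import Vale.Agent.P139.H201.Wiener4
import Vale.Agent.P139.H201.Ext2

/-!
# P139 / H510 : frame calculus, part 5

From symbol bounds to the scaled torus norm.
-/

open scoped ContDiff ComplexConjugate FourierTransform
open Set MeasureTheory

namespace Vale.Agent.P139.H510

open Vale.Agent.P139.A Vale.Agent.P139.A.WA Vale.Agent.P139.BU Vale.Agent.P139.N
  Vale.Agent.P139.H201

variable {d : ℕ}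

theorem contDiff_cA : ContDiff ℝ ∞ (cA : E d → ℂ) := by
  unfold cA
  exact Complex.ofRealCLM.contDiff.comp (bA d).contDiff

theorem contDiff_cC : ContDiff ℝ ∞ (cC : E d → ℂ) := by
  unfold cC
  exact Complex.ofRealCLM.contDiff.comp (bC d).contDiff

theorem cC_one {x : E d} (hx : ‖x‖ ≤ 2) : cC x = 1 := by
  unfold cC
  rw [(bC d).one_of_mem_closedBall (by rw [mem_closedBall_zero_iff]; exact hx)]
  simp

theorem cC_zero {x : E d} (hx : 3 ≤ ‖x‖) : cC x = 0 := by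
  unfold cC
  rw [(bC d).zero_of_le_dist (by rw [dist_zero_right]; exact hx)]
  simp

theorem cA_one {x : E d} (hx : ‖x‖ ≤ 1 / 2) : cA x = 1 := by
  unfold cA
  rw [(bA d).one_of_mem_closedBall (by rw [mem_closedBall_zero_iff]; exact hx)]
  simp

theorem cA_zero {x : E d} (hx : 1 ≤ ‖x‖) : cA x = 0 := by
  unfold cA
  rw [(bA d).zero_of_le_dist (by rw [dist_zero_right]; exact hx)]
  simp

/-- The scaled torus norm of a rescaled symbol supported in the ball of radius `2`. -/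
theorem per_bound (d K : ℕ) {δ : ℝ} (hδ : 0 < δ) : ∃ C : ℝ, 0 < C ∧
    ∀ (ℓ A : ℝ) (f : E d → ℂ), 0 < ℓ → ℓ ≤ 1 → SymN (nd (E d) K) δ A f →
      (∀ y, 2 < ‖ℓ • y‖ → f y = 0) →
      (Summable fun n : Lat d => W K n * ‖perCoef (fun x => f (ℓ⁻¹ • x)) n‖) ∧
      Nn ℓ K (per K (fun x => f (ℓ⁻¹ • x)) : WA d K) ≤ C * A := by
  obtain ⟨C1, hC1, h1⟩ := WienerRep.symbol (E d) ℂ K hδ
  obtain ⟨C2, hC2, h2⟩ := ext_bound (d := d) contDiff_cC (fun x hx => cC_zero hx) K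
  refine ⟨C2 * (2 ^ K * C1), by positivity, ?_⟩
  intro ℓ A f hℓ hℓ1 hf hsupp
  obtain ⟨φ, hφ1, hφ2, hφ3, hφ4⟩ := h1 f A hf.nonneg hf.1 hf.2
  have hw : ∀ ξ : E d, (1 + ‖ξ‖) ^ K ≤ 2 ^ K * (1 + ‖ξ‖ ^ K) := fun ξ =>
    one_add_pow_le K (norm_nonneg ξ)
  have hint : Integrable (fun ξ : E d => (1 + ‖ξ‖) ^ K * ‖φ ξ‖) := by
    refine (hφ2.const_mul (2 ^ K)).mono ?_ ?_
    · exact ((continuous_const.add continuous_norm).pow K).aestronglyMeasurable.mul
        hφ1.1.norm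
    · refine Filter.Eventually.of_forall fun ξ => ?_
      rw [Real.norm_of_nonneg (by positivity), Real.norm_of_nonneg (by positivity), ← mul_assoc]
      exact mul_le_mul_of_nonneg_right (hw ξ) (norm_nonneg _)
  have hle : ∫ ξ : E d, (1 + ‖ξ‖) ^ K * ‖φ ξ‖ ≤ 2 ^ K * (C1 * A) := by
    calc ∫ ξ : E d, (1 + ‖ξ‖) ^ K * ‖φ ξ‖
        ≤ ∫ ξ : E d, 2 ^ K * ((1 + ‖ξ‖ ^ K) * ‖φ ξ‖) := by
          refine integral_mono hint (hφ2.const_mul _) fun ξ => ?_
          show (1 + ‖ξ‖) ^ K * ‖φ ξ‖ ≤ 2 ^ K * ((1 + ‖ξ‖ ^ K) * ‖φ ξ‖)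
          rw [← mul_assoc]
          exact mul_le_mul_of_nonneg_right (hw ξ) (norm_nonneg _)
      _ = 2 ^ K * ∫ ξ : E d, (1 + ‖ξ‖ ^ K) * ‖φ ξ‖ := integral_const_mul _ _
      _ ≤ _ := mul_le_mul_of_nonneg_left hφ4 (by positivity)
  have hfun : (fun x : E d => f (ℓ⁻¹ • x)) = fun x => cC x * 𝓕⁻ φ (ℓ⁻¹ • x) := by
    funext x
    by_cases hx : ‖x‖ ≤ 2
    · rw [cC_one hx, one_mul, hφ3]
    · have h3 : f (ℓ⁻¹ • x) = 0 := hsupp _ (by
        rw [smul_smul, mul_inv_cancel₀ hℓ.ne', one_smul]; exact not_le.1 hx)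
      rw [h3, ← hφ3, h3, mul_zero]
  obtain ⟨h3, h4⟩ := h2 ℓ hℓ hℓ1 φ hφ1 hint
  rw [← hfun] at h3 h4
  have hsum : Summable fun n : Lat d => W K n * ‖perCoef (fun x => f (ℓ⁻¹ • x)) n‖ := by
    refine Summable.of_nonneg_of_le (fun n => mul_nonneg (W_pos n).le (norm_nonneg _))
      (fun n => ?_) (h3.mul_left ((ℓ⁻¹) ^ K))
    rw [← mul_assoc, ← mul_pow, W]
    refine mul_le_mul_of_nonneg_right (pow_le_pow_left₀ (by positivity) ?_ K) (norm_nonneg _)
    rw [mul_add, mul_one, ← mul_assoc, inv_mul_cancel₀ hℓ.ne', one_mul]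
    have : 1 ≤ ℓ⁻¹ := (one_le_inv₀ hℓ).2 hℓ1
    linarith
  refine ⟨hsum, ?_⟩
  have hc : ∀ n, coef (per K (fun x => f (ℓ⁻¹ • x)) : WA d K) n
      = perCoef (fun x => f (ℓ⁻¹ • x)) n := by
    intro n
    unfold per
    rw [dif_pos hsum, coef_mk]
  unfold Nn
  simp only [hc]
  calc _ ≤ C2 * ∫ ξ : E d, (1 + ‖ξ‖) ^ K * ‖φ ξ‖ := h4
    _ ≤ C2 * (2 ^ K * (C1 * A)) := mul_le_mul_of_nonneg_left hle hC2.le
    _ = _ := by ring

theorem coef_per {K : ℕ} {G : E d → ℂ} (h : Summable fun n : Lat d => W K n * ‖perCoef G n‖)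
    (n : Lat d) : coef (per K G : WA d K) n = perCoef G n := by
  unfold per
  rw [dif_pos h, coef_mk]

/-- Translation. -/
theorem perCoef_translate (G : E d → ℂ) (b : E d) (n : Lat d) :
    perCoef (fun x => G (x - b)) n = expi (-n) (WithLp.ofLp b) * perCoef G n := by
  unfold perCoef
  have h1 : ∫ x : E d, G (x - b) * expi (-n) (WithLp.ofLp x)
      = ∫ x : E d, G x * expi (-n) (WithLp.ofLp (x + b)) := by
    rw [← integral_sub_right_eq_self (fun x : E d => G x * expi (-n) (WithLp.ofLp (x + b))) b]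
    simp only [sub_add_cancel]
  rw [h1]
  have h2 : ∀ x : E d, G x * expi (-n) (WithLp.ofLp (x + b))
      = expi (-n) (WithLp.ofLp b) * (G x * expi (-n) (WithLp.ofLp x)) := by
    intro x
    rw [WithLp.ofLp_add, expi_add_right]
    ring
  simp only [h2]
  rw [integral_const_mul]
  ring

theorem integrable_mul_expi {G : E d → ℂ} (hG : Continuous G) {r : ℝ}
    (hs : ∀ x, r < ‖x‖ → G x = 0) (n : Lat d) :
    Integrable (fun x : E d => G x * expi n (WithLp.ofLp x)) := by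
  have hc : Continuous (fun x : E d => G x * expi n (WithLp.ofLp x)) := by
    refine hG.mul ((continuous_expi n).comp ?_)
    exact PiLp.continuous_ofLp 2 _
  refine hc.integrable_of_hasCompactSupport ?_
  refine HasCompactSupport.of_support_subset_isCompact (isCompact_closedBall (0 : E d) r) ?_
  intro x hx
  rw [mem_closedBall_zero_iff]
  by_contra h
  refine hx ?_
  show G x * expi n (WithLp.ofLp x) = 0
  rw [hs x (not_le.1 h), zero_mul]

theorem perCoef_add {G H : E d → ℂ} (hG : Continuous G) (hH : Continuous H) {r : ℝ}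
    (hs : ∀ x, r < ‖x‖ → G x = 0) (hs' : ∀ x, r < ‖x‖ → H x = 0) (n : Lat d) :
    perCoef (fun x => G x + H x) n = perCoef G n + perCoef H n := by
  unfold perCoef
  rw [← mul_add, ← integral_add (integrable_mul_expi hG hs _) (integrable_mul_expi hH hs' _)]
  congr 2
  funext x
  ring

theorem perCoef_const_mul (c : ℂ) (G : E d → ℂ) (n : Lat d) :
    perCoef (fun x => c * G x) n = c * perCoef G n := by
  unfold perCoef
  simp only [mul_assoc]
  rw [integral_const_mul]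
  ring

theorem perCoef_sub {G H : E d → ℂ} (hG : Continuous G) (hH : Continuous H) {r : ℝ}
    (hs : ∀ x, r < ‖x‖ → G x = 0) (hs' : ∀ x, r < ‖x‖ → H x = 0) (n : Lat d) :
    perCoef (fun x => G x - H x) n = perCoef G n - perCoef H n := by
  unfold perCoef
  rw [← mul_sub, ← integral_sub (integrable_mul_expi hG hs _) (integrable_mul_expi hH hs' _)]
  congr 2
  funext x
  ring

/-! ### Cut-offs as symbols, tails -/

/-- A smooth compactly supported function is a cut-off in the sense of `CutN`. -/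
theorem cutN_of_smooth {χ : E d → ℂ} (hχ : ContDiff ℝ ∞ χ) {ρ : ℝ} (hρ : ∀ x, ρ < ‖x‖ → χ x = 0)
    (N : ℕ) : ∃ A : ℝ, 0 < A ∧ CutN N ρ A χ := by
  have hcs : HasCompactSupport χ := by
    refine HasCompactSupport.of_support_subset_isCompact (isCompact_closedBall (0 : E d) ρ) ?_
    intro x hx
    rw [mem_closedBall_zero_iff]
    by_contra h
    exact hx (hρ x (not_le.1 h))
  have h1 : ∀ k : ℕ, ∃ A : ℝ, ∀ x, ‖iteratedFDeriv ℝ k χ x‖ ≤ A := by
    intro k
    have hc : Continuous (iteratedFDeriv ℝ k χ) :=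
      hχ.continuous_iteratedFDeriv (by exact_mod_cast le_top)
    have hcs' : HasCompactSupport (iteratedFDeriv ℝ k χ) := hcs.iteratedFDeriv k
    exact hcs'.exists_bound_of_continuous hc
  choose A hA using h1
  refine ⟨(∑ k ∈ Finset.range (N + 1), |A k|) + 1, by positivity,
    hχ.of_le (by exact_mod_cast le_top), fun k hk x => ?_, hρ⟩
  have h2 : |A k| ≤ ∑ k ∈ Finset.range (N + 1), |A k| :=
    Finset.single_le_sum (f := fun k => |A k|) (fun i _ => abs_nonneg _)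
      (Finset.mem_range.2 (by omega))
  have := le_abs_self (A k)
  linarith [hA k x]

/-- Collecting the symbol bounds of all orders. -/
theorem symN_of_symbol {Q : E d → ℂ} {δ : ℝ} (hQ : ContDiff ℝ ∞ Q)
    (h : ∀ k : ℕ, ∃ C : ℝ, ∀ x, ‖iteratedFDeriv ℝ k Q x‖ ≤ C * (1 + ‖x‖) ^ (-δ - (k : ℝ)))
    (N : ℕ) : ∃ B : ℝ, 0 < B ∧ SymN N δ B Q := by
  choose A hA using h
  refine ⟨(∑ k ∈ Finset.range (N + 1), |A k|) + 1, by positivity,
    hQ.of_le (by exact_mod_cast le_top), fun k hk x => (hA k x).trans ?_⟩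
  have h2 : |A k| ≤ ∑ k ∈ Finset.range (N + 1), |A k| :=
    Finset.single_le_sum (f := fun k => |A k|) (fun i _ => abs_nonneg _)
      (Finset.mem_range.2 (by omega))
  have := le_abs_self (A k)
  refine mul_le_mul_of_nonneg_right (by linarith) (Real.rpow_nonneg (by positivity) _)

/-- Tail of a symbol: a cut-off which vanishes near `0`. -/
theorem symN_tail {N : ℕ} {δ A B r₀ ρ : ℝ} (hr : 0 < r₀) (hρ : 0 ≤ ρ) (hδ : 0 < δ)
    {ψ f : E d → ℂ} (hψ : CutN N ρ A ψ) (hψ0 : ∀ x, ‖x‖ < r₀ → ψ x = 0) (hf : SymN N δ B f)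
    {lam : ℝ} (hl : 0 < lam) (hl1 : lam ≤ 1) :
    SymN N (δ / 2) (2 ^ N * ((2 + ρ) ^ N * A * B) * ((r₀ / lam) ^ (-(δ / 2))))
      (fun y => ψ (lam • y) * f y) := by
  have h1 := hψ.scaled hρ hl hl1 (b := 0) (by simp)
  simp only [sub_zero] at h1
  have h2 := h1.mul hf
  rw [zero_add] at h2
  refine ⟨h2.1, fun k hk x => ?_⟩
  have hA := hψ.nonneg
  have hB := hf.nonneg
  by_cases hx : ‖lam • x‖ < r₀
  · have h3 : (fun y => ψ (lam • y) * f y) =ᶠ[nhds x] fun _ => (0 : ℂ) := by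
      have : {y : E d | ‖lam • y‖ < r₀} ∈ nhds x :=
        (isOpen_lt (continuous_norm.comp (continuous_const_smul lam)) continuous_const).mem_nhds hx
      filter_upwards [this] with y hy
      rw [hψ0 _ hy, zero_mul]
    have h4 := (h3.iteratedFDeriv ℝ k).self_of_nhds
    rw [h4]
    have h5 : iteratedFDeriv ℝ k (fun _ : E d => (0 : ℂ)) x = 0 :=
      congrFun (iteratedFDeriv_fun_zero (𝕜 := ℝ) (E := E d) (F := ℂ) (n := k)) x
    rw [h5, norm_zero]
    have : 0 ≤ (r₀ / lam) ^ (-(δ / 2)) := Real.rpow_nonneg (by positivity) _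
    have : 0 ≤ (1 + ‖x‖) ^ (-(δ / 2) - (k : ℝ)) := Real.rpow_nonneg (by positivity) _
    positivity
  · have h3 := h2.2 k hk x
    refine h3.trans ?_
    have h4 : r₀ / lam ≤ 1 + ‖x‖ := by
      rw [div_le_iff₀ hl]
      rw [norm_smul, Real.norm_eq_abs, abs_of_pos hl, not_lt] at hx
      nlinarith
    have h5 : (1 + ‖x‖) ^ (-(δ / 2)) ≤ (r₀ / lam) ^ (-(δ / 2)) :=
      Real.rpow_le_rpow_of_nonpos (by positivity) h4 (by linarith)
    have h6 : (1 + ‖x‖) ^ (-δ - (k : ℝ))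
        = (1 + ‖x‖) ^ (-(δ / 2)) * (1 + ‖x‖) ^ (-(δ / 2) - (k : ℝ)) := by
      rw [← Real.rpow_add (by positivity)]
      congr 1
      ring
    rw [h6]
    have h7 : 0 ≤ (1 + ‖x‖) ^ (-(δ / 2) - (k : ℝ)) := Real.rpow_nonneg (by positivity) _
    calc 2 ^ N * ((2 + ρ) ^ N * A * B)
          * ((1 + ‖x‖) ^ (-(δ / 2)) * (1 + ‖x‖) ^ (-(δ / 2) - (k : ℝ)))
        ≤ 2 ^ N * ((2 + ρ) ^ N * A * B)
          * ((r₀ / lam) ^ (-(δ / 2)) * (1 + ‖x‖) ^ (-(δ / 2) - (k : ℝ))) := by gcongr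
      _ = _ := by ring

end Vale.Agent.P139.H510
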