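import Vale.Agent.P139.H510.RC5
import Vale.Agent.P139.H605.Step1Def

/-!
# P139 / H510 : frame calculus, part 6

The change of frame on the torus: if `v` is close to the cut-off of `Q + e`, `e` a real combination
of the symmetry modes, then `v` seen in a new frame is close to the cut-off profile.
-/

open scoped ContDiff ComplexConjugate FourierTransform
open Set MeasureTheory

namespace Vale.Agent.P139.H510

open Vale.Agent.P139.A Vale.Agent.P139.A.WA Vale.Agent.P139.BU Vale.Agent.P139.N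
  Vale.Agent.P139.H201 Vale.Agent.P139.H605

variable {d : ℕ}

theorem aa_pos' {m : ℕ} (hm : 1 ≤ m) : 0 < aa m := by
  have : (0 : ℝ) < m := by exact_mod_cast hm
  unfold aa
  positivity

theorem two_aa_le {m : ℕ} (hm : 1 ≤ m) : 2 * aa m ≤ 1 := by
  have h1 : (1 : ℝ) ≤ m := by exact_mod_cast hm
  have h0 : (m : ℝ) ≠ 0 := by positivity
  unfold aa
  have : 2 * (1 / (2 * (m : ℝ))) = 1 / m := by field_simp
  rw [this, div_le_one (by linarith)]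
  exact h1

theorem contDiff_profile {m : ℕ} {w : ℝ} {Q : E d → ℂ} (hQ : IsProfile d m w Q) :
    ContDiff ℝ ∞ Q := by
  obtain ⟨h, hh, hQh⟩ := hQ.radial
  have : Q = fun x => h (‖x‖ ^ 2) := funext hQh
  rw [this]
  exact hh.comp (contDiff_norm_sq ℝ)

theorem modeOf_eq {m : ℕ} {w : ℝ} {Q : E d → ℂ} (al ga : ℝ) (be : Fin d → ℝ) (y : E d) :
    modeOf m w Q al be ga y
      = tang (aa m) (-ga / 2) (al - ga * w) (-(WithLp.toLp 2 be : E d)) Q y := by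
  rw [tang_eq, modeOf]

theorem contDiff_tang {a μ ψ : ℝ} {ξ : E d} {Q : E d → ℂ} (hQ : ContDiff ℝ ∞ Q) :
    ContDiff ℝ ∞ (tang a μ ψ ξ Q) := by
  unfold tang
  exact ((contDiff_const.mul hQ).sub (contDiff_const.mul (contDiff_eul hQ))).sub
    (contDiff_pdir hQ ξ)

/-- Symbol bound for the tangent vectors. -/
theorem symN_tang {a : ℝ} (ha : 0 ≤ a) (ha1 : 2 * a ≤ 1) {Q : E d → ℂ} {N : ℕ} {B : ℝ}
    (hB : SymN (N + 1) (2 * a) B Q) {μ ψ P : ℝ} {ξ : E d} (hP : |μ| + |ψ| ≤ P) (hξP : ‖ξ‖ ≤ P) :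
    SymN N (2 * a) (B * (N + 4) * P) (tang a μ ψ ξ Q) := by
  have hB0 := hB.nonneg
  have hP0 : 0 ≤ P := (norm_nonneg _).trans hξP
  have hμP : |μ| ≤ P := by linarith [abs_nonneg ψ]
  have hκ : ‖(Complex.I * ψ - 2 * a * μ : ℂ)‖ ≤ P := by
    refine (norm_sub_le _ _).trans ?_
    have e1 : ‖(Complex.I * ψ : ℂ)‖ = |ψ| := by
      rw [norm_mul, Complex.norm_I, one_mul, Complex.norm_real, Real.norm_eq_abs]
    have e2 : ‖(2 * a * μ : ℂ)‖ ≤ |μ| := by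
      rw [norm_mul, norm_mul, Complex.norm_real, Complex.norm_real, Real.norm_eq_abs,
        Real.norm_eq_abs, abs_of_nonneg ha]
      have : ‖(2 : ℂ)‖ = 2 := by simp
      rw [this]
      nlinarith [abs_nonneg μ]
    linarith
  have b1 := (hB.mono (Nat.le_succ N) le_rfl le_rfl).const_mul (Complex.I * ψ - 2 * a * μ : ℂ)
  have b2 := hB.eul.const_mul (μ : ℂ)
  have b3 := (hB.pdir ξ).mono le_rfl (by linarith : 2 * a ≤ 2 * a + 1) le_rfl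
  have b := (b1.sub b2).sub b3
  refine b.mono le_rfl le_rfl ?_
  rw [Complex.norm_real, Real.norm_eq_abs]
  have e1 : ‖(Complex.I * ψ - 2 * a * μ : ℂ)‖ * B ≤ P * B := mul_le_mul_of_nonneg_right hκ hB0
  have e2 : |μ| * (B * (N + 1)) ≤ P * (B * (N + 1)) :=
    mul_le_mul_of_nonneg_right hμP (by positivity)
  have e3 : B * ‖ξ‖ ≤ B * P := mul_le_mul_of_nonneg_left hξP hB0
  have e4 : 0 ≤ P * B := by positivity
  nlinarith

/-- Algebra of the change of frame on the torus. -/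
theorem toFrame_identity {m K : ℕ} {μ ψ : ℝ} {b : Fin d → ℝ} {v u1 u2 u5 : WA d K}
    (h : ∀ n, coef u5 n = coef u1 n
      - Complex.exp (Complex.I * ψ - 2 * aa m * μ) * (expi (-n) b * coef u2 n)) :
    toFrame m (Real.exp μ) b ψ v - u2 = toFrame m (Real.exp μ) b ψ ((v - u1) + u5) := by
  ext n
  unfold toFrame
  rw [coef_sub, coef_shift, coef_shift, coef_add, coef_sub, h n]
  have h9 : expi n b * expi (-n) b = 1 := by
    rw [← expi_add]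
    simp [expi_zero]
  have h10 : Complex.exp (-(Complex.I * ψ)) * ((Real.exp μ ^ (2 * aa m) : ℝ) : ℂ)
      * Complex.exp (Complex.I * ψ - 2 * aa m * μ) = 1 := by
    rw [← Real.exp_mul]
    push_cast
    rw [← Complex.exp_add, ← Complex.exp_add]
    rw [show -(Complex.I * (ψ : ℂ)) + (μ : ℂ) * (2 * (aa m : ℂ))
      + (Complex.I * ψ - 2 * aa m * μ) = 0 by ring, Complex.exp_zero]
  linear_combination coef u2 n * (h10 * (expi n b * expi (-n) b) + h9)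

theorem exp_half_le : Real.exp (1 / 2) ≤ 2 := by
  have h6 : Real.exp (1 / 2) ^ 2 = Real.exp 1 := by
    rw [← Real.exp_nat_mul]; norm_num
  have h7 := Real.exp_one_lt_d9
  nlinarith [Real.exp_pos (1 / 2 : ℝ)]

/-- Fourier coefficients of a sum of pieces. -/
theorem perCoef_pieces {A₁ A₂ : E d → ℂ} (k1 : Continuous A₁) (k2 : Continuous A₂)
    {b : E d} (hb : ‖b‖ ≤ 1)
    (z1 : ∀ x, 1 ≤ ‖x‖ → A₁ x = 0) (z2 : ∀ x, 1 ≤ ‖x‖ → A₂ x = 0) (κ : ℂ) (n : Lat d) :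
    perCoef (fun x => A₁ x - κ * A₂ (x - b)) n
      = perCoef A₁ n - κ * (expi (-n) (WithLp.ofLp b) * perCoef A₂ n) := by
  have z1' : ∀ x, 2 < ‖x‖ → A₁ x = 0 := fun x hx => z1 x (by linarith)
  have z2' : ∀ x, 2 < ‖x‖ → κ * A₂ (x - b) = 0 := fun x hx => by
    have h7 : 1 ≤ ‖x - b‖ := by
      have := norm_sub_norm_le x b
      linarith
    rw [z2 _ h7, mul_zero]
  have k2' : Continuous fun x => κ * A₂ (x - b) :=
    continuous_const.mul (k2.comp (continuous_id.sub continuous_const))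
  have q1 : perCoef (fun x => A₁ x - κ * A₂ (x - b)) n
      = perCoef (fun x => A₁ x) n - perCoef (fun x => κ * A₂ (x - b)) n :=
    perCoef_sub k1 k2' z1' z2' n
  have q4 : perCoef (fun x => κ * A₂ (x - b)) n = κ * perCoef (fun x => A₂ (x - b)) n :=
    perCoef_const_mul κ (fun x => A₂ (x - b)) n
  rw [q1, q4, perCoef_translate]

/-- The frame error in the variable of the torus. -/
theorem frameErr_scaled {a μ ψ : ℝ} {Q : E d → ℂ} {ℓ ν : ℝ} {ξ : E d} (hℓ : 0 < ℓ)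
    (hν : ν = ℓ * Real.exp μ) (x : E d) :
    frameErr a ℓ μ ψ ξ cA Q (ℓ⁻¹ • x) =
      cA x * (Q (ℓ⁻¹ • x) + tang a μ ψ ξ Q (ℓ⁻¹ • x))
      - Complex.exp (Complex.I * ψ - 2 * a * μ) * (cA (x - ℓ • ξ) * Q (ν⁻¹ • (x - ℓ • ξ))) := by
  have h7 : ℓ⁻¹ • (x - ℓ • ξ) = ℓ⁻¹ • x - ξ := by
    rw [smul_sub, smul_smul ℓ⁻¹ ℓ ξ, inv_mul_cancel₀ hℓ.ne', one_smul]
  have h8 : ℓ • ℓ⁻¹ • x = x := by rw [smul_smul, mul_inv_cancel₀ hℓ.ne', one_smul]
  have h9 : ℓ • (ℓ⁻¹ • x - ξ) = x - ℓ • ξ := by rw [smul_sub, h8]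
  have h6 : Real.exp (-μ) • (ℓ⁻¹ • x - ξ) = ν⁻¹ • (x - ℓ • ξ) := by
    rw [← h7, smul_smul, hν, mul_inv, Real.exp_neg, mul_comm]
  rw [frameErr, h6, h8, h9]

theorem perCoef_frameErr {a μ ψ : ℝ} {Q : E d → ℂ} (hQ : ContDiff ℝ ∞ Q)
    {ℓ ν : ℝ} {ξ : E d} (hℓ : 0 < ℓ) (hℓ1 : ℓ ≤ 1) (hξ : ‖ξ‖ ≤ 1) (hν : ν = ℓ * Real.exp μ)
    (n : Lat d) :
    perCoef (fun x => frameErr a ℓ μ ψ ξ cA Q (ℓ⁻¹ • x)) n
      = perCoef (fun x => cA x * (Q (ℓ⁻¹ • x) + tang a μ ψ ξ Q (ℓ⁻¹ • x))) n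
        - Complex.exp (Complex.I * ψ - 2 * a * μ)
          * (expi (-n) (WithLp.ofLp (ℓ • ξ)) * perCoef (fun x => cA x * Q (ν⁻¹ • x)) n) := by
  have he : Continuous (tang a μ ψ ξ Q) := (contDiff_tang hQ).continuous
  have hcA : Continuous (cA : E d → ℂ) := contDiff_cA.continuous
  have hb : ‖ℓ • ξ‖ ≤ 1 := by
    rw [norm_smul, Real.norm_eq_abs, abs_of_pos hℓ]
    nlinarith [norm_nonneg ξ]
  have h1 : (fun x => frameErr a ℓ μ ψ ξ cA Q (ℓ⁻¹ • x)) = fun x =>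
      cA x * (Q (ℓ⁻¹ • x) + tang a μ ψ ξ Q (ℓ⁻¹ • x))
      - Complex.exp (Complex.I * ψ - 2 * a * μ) * (cA (x - ℓ • ξ) * Q (ν⁻¹ • (x - ℓ • ξ))) :=
    funext fun x => frameErr_scaled hℓ hν x
  rw [h1]
  exact perCoef_pieces (A₁ := fun x => cA x * (Q (ℓ⁻¹ • x) + tang a μ ψ ξ Q (ℓ⁻¹ • x)))
    (A₂ := fun x => cA x * Q (ν⁻¹ • x)) (b := ℓ • ξ)
    (hcA.mul ((hQ.continuous.comp (continuous_const_smul _)).add
      (he.comp (continuous_const_smul _))))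
    (hcA.mul (hQ.continuous.comp (continuous_const_smul _))) hb
    (fun x hx => by simp only [cA_zero hx, zero_mul])
    (fun x hx => by simp only [cA_zero hx, zero_mul]) _ n

/-- The coefficients of a cut-off symbol are summable. -/
theorem summable_cut {K : ℕ} {δ B : ℝ} (hδ : 0 < δ) {g : E d → ℂ}
    (hg : SymN (nd (E d) K) δ B g) {ℓ : ℝ} (hℓ : 0 < ℓ) (hℓ1 : ℓ ≤ 1) :
    Summable fun n : Lat d => W K n * ‖perCoef (fun x => cA x * g (ℓ⁻¹ • x)) n‖ := by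
  obtain ⟨C, hC, h⟩ := per_bound d K hδ
  obtain ⟨AA, hAA0, hAA⟩ := cutN_of_smooth (d := d) contDiff_cA
    (fun x hx => cA_zero hx.le : ∀ x : E d, 1 < ‖x‖ → cA x = 0) (nd (E d) K)
  have h1 := hAA.scaled zero_le_one hℓ hℓ1 (b := 0) (by simp)
  simp only [sub_zero] at h1
  have h2 := h1.mul hg
  rw [zero_add] at h2
  obtain ⟨s, -⟩ := h ℓ _ _ hℓ hℓ1 h2 (fun y hy => by rw [cA_zero (by linarith), zero_mul])
  refine s.congr fun n => ?_
  have : (fun x : E d => cA (ℓ • ℓ⁻¹ • x) * g (ℓ⁻¹ • x)) = fun x => cA x * g (ℓ⁻¹ • x) := by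
    funext x
    rw [smul_smul, mul_inv_cancel₀ hℓ.ne', one_smul]
  rw [this]

/-- The frame error on the torus. -/
theorem frameErr_bound {a : ℝ} (ha : 0 < a) (ha1 : 2 * a ≤ 1) {Q : E d → ℂ}
    (hQ : ContDiff ℝ ∞ Q) (K : ℕ) {B : ℝ} (hB : SymN (nd (E d) K + 2) (2 * a) B Q) :
    ∃ C : ℝ, 0 < C ∧ ∀ (ℓ μ ψ : ℝ) (ξ : E d) (P : ℝ), 0 < ℓ → ℓ ≤ 1 →
      |μ| + |ψ| ≤ P → ‖ξ‖ ≤ P → P ≤ 1 →
      (Summable fun n : Lat d =>
        W K n * ‖perCoef (fun x => frameErr a ℓ μ ψ ξ cA Q (ℓ⁻¹ • x)) n‖) ∧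
      Nn ℓ K (per K (fun x => frameErr a ℓ μ ψ ξ cA Q (ℓ⁻¹ • x)) : WA d K)
        ≤ C * (P ^ 2 + P * ℓ) := by
  obtain ⟨AA, hAA0, hAA⟩ := cutN_of_smooth (d := d) contDiff_cA
    (fun x hx => cA_zero hx.le : ∀ x : E d, 1 < ‖x‖ → cA x = 0) (nd (E d) K + 2)
  obtain ⟨C1, hC1, h1⟩ := symN_frameErr (d := d) ha.le ha1 zero_le_one contDiff_cA hQ hAA hB
  obtain ⟨C2, hC2, h2⟩ := per_bound d K (δ := 2 * a) (by linarith)
  refine ⟨C2 * C1, by positivity, ?_⟩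
  intro ℓ μ ψ ξ P hℓ hℓ1 hP hξ hP1
  have hs := h1 ℓ μ ψ ξ P hℓ hℓ1 hP hξ hP1
  obtain ⟨s, n⟩ := h2 ℓ _ _ hℓ hℓ1 hs (fun y hy =>
    frameErr_eq_zero (ρ := 1) (fun x hx => cA_zero hx.le) hℓ hℓ1 (hξ.trans hP1) (by linarith))
  refine ⟨s, n.trans (le_of_eq ?_)⟩
  ring

/-- The change of frame as an identity on the torus. -/
theorem frame_identity {m : ℕ} (hm : 1 ≤ m) {Q : E d → ℂ} (hQ : ContDiff ℝ ∞ Q)
    {K : ℕ} {B : ℝ} (hB : SymN (nd (E d) K + 1) (2 * aa m) B Q) {ℓ μ ψ : ℝ} {ξ : E d}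
    (hℓ : 0 < ℓ) (hℓ1 : ℓ ≤ 1) (hν : ℓ * Real.exp μ ≤ 1) (hξ : ‖ξ‖ ≤ 1) (v : WA d K)
    (hs : Summable fun n : Lat d =>
        W K n * ‖perCoef (fun x => frameErr (aa m) ℓ μ ψ ξ cA Q (ℓ⁻¹ • x)) n‖) :
    toFrame m (Real.exp μ) (WithLp.ofLp (ℓ • ξ)) ψ v - Up K Q (ℓ * Real.exp μ)
      = toFrame m (Real.exp μ) (WithLp.ofLp (ℓ • ξ)) ψ
        ((v - Up K (fun y => Q y + tang (aa m) μ ψ ξ Q y) ℓ)
          + per K (fun x => frameErr (aa m) ℓ μ ψ ξ cA Q (ℓ⁻¹ • x))) := by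
  have ha : 0 < aa m := aa_pos' hm
  have ha1 : 2 * aa m ≤ 1 := two_aa_le hm
  have hQ' : SymN (nd (E d) K) (2 * aa m) B Q := hB.mono (Nat.le_succ _) le_rfl le_rfl
  have ht := symN_tang ha.le ha1 hB (le_max_left (|μ| + |ψ|) ‖ξ‖) (le_max_right (|μ| + |ψ|) ‖ξ‖)
  have s1 := summable_cut (K := K) (by linarith : 0 < 2 * aa m) (hQ'.add ht) hℓ hℓ1
  have s2 := summable_cut (K := K) (by linarith : 0 < 2 * aa m) hQ'
    (mul_pos hℓ (Real.exp_pos μ)) hν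
  refine toFrame_identity fun n => ?_
  unfold Up
  rw [coef_per s1, coef_per s2, coef_per hs]
  exact perCoef_frameErr hQ hℓ hℓ1 hξ rfl n

/-- Effect of a small change of scale on the norm. -/
theorem Nn_rescale {m : ℕ} (hm : 1 ≤ m) {K : ℕ} {μ P ℓ : ℝ} (hμ : |μ| ≤ P)
    (hP : (K + 1) * P ≤ 1 / 2) (hℓ : 0 < ℓ) (hℓ1 : ℓ ≤ 1) (hν : ℓ * Real.exp μ ≤ 1) (H : WA d K) :
    Real.exp μ ^ (2 * aa m) * Nn (ℓ * Real.exp μ) K H ≤ 2 * Nn ℓ K H := by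
  have ha : 0 < aa m := aa_pos' hm
  have ha1 : 2 * aa m ≤ 1 := two_aa_le hm
  have hK0 : (0 : ℝ) ≤ K := by positivity
  have hP0 : 0 ≤ P := (abs_nonneg _).trans hμ
  have hH0 : 0 ≤ Nn ℓ K H := Nn_nonneg hℓ.le _ _
  have hscale : Nn (ℓ * Real.exp μ) K H ≤ Real.exp (K * P) * Nn ℓ K H := by
    rcases le_total (Real.exp μ) 1 with hle | hle
    · have h11 : ℓ * Real.exp μ ≤ ℓ := by nlinarith
      refine (Nn_mono (mul_pos hℓ (Real.exp_pos μ)).le h11 hℓ1 le_rfl H).trans ?_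
      have : 1 ≤ Real.exp (K * P) := Real.one_le_exp (by positivity)
      nlinarith
    · have h12 := Nn_scale hℓ.le hle (by rw [mul_comm]; exact hν) (le_refl K) H
      rw [mul_comm] at h12
      refine h12.trans (mul_le_mul_of_nonneg_right ?_ hH0)
      rw [← Real.exp_nat_mul]
      refine Real.exp_le_exp.2 (mul_le_mul_of_nonneg_left ?_ hK0)
      exact (le_abs_self _).trans hμ
  have hfac : Real.exp μ ^ (2 * aa m) * Real.exp (K * P) ≤ 2 := by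
    rw [← Real.exp_mul, ← Real.exp_add]
    have h13 : μ * (2 * aa m) + K * P ≤ 1 / 2 := by
      have h15 : μ * (2 * aa m) ≤ |μ| * (2 * aa m) :=
        mul_le_mul_of_nonneg_right (le_abs_self _) (by positivity)
      have h16 : |μ| * (2 * aa m) ≤ |μ| * 1 :=
        mul_le_mul_of_nonneg_left ha1 (abs_nonneg _)
      linarith
    exact (Real.exp_le_exp.2 h13).trans exp_half_le
  calc Real.exp μ ^ (2 * aa m) * Nn (ℓ * Real.exp μ) K H
      ≤ Real.exp μ ^ (2 * aa m) * (Real.exp (K * P) * Nn ℓ K H) :=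
        mul_le_mul_of_nonneg_left hscale (Real.rpow_nonneg (Real.exp_pos μ).le _)
    _ = (Real.exp μ ^ (2 * aa m) * Real.exp (K * P)) * Nn ℓ K H := by ring
    _ ≤ 2 * Nn ℓ K H := mul_le_mul_of_nonneg_right hfac hH0

/-- The change of frame. -/
theorem frame_change {m : ℕ} (hm : 1 ≤ m) {w : ℝ} {Q : E d → ℂ} (hQ : IsProfile d m w Q) (K : ℕ) :
    ∃ C : ℝ, 0 < C ∧ ∀ (ℓ al ga P : ℝ) (be : Fin d → ℝ) (v : WA d K), 0 < ℓ → ℓ ≤ 1 / 2 →
      |ga / 2| + |al - ga * w| ≤ P → ‖(WithLp.toLp 2 be : E d)‖ ≤ P → (K + 1) * P ≤ 1 / 2 →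
      Nn (ℓ * Real.exp (-ga / 2)) K (toFrame m (Real.exp (-ga / 2))
        (WithLp.ofLp (ℓ • (-(WithLp.toLp 2 be : E d)))) (al - ga * w) v
        - Up K Q (ℓ * Real.exp (-ga / 2)))
      ≤ 2 * (Nn ℓ K (v - Up K (fun y => Q y + modeOf m w Q al be ga y) ℓ)
        + C * (P ^ 2 + P * ℓ)) := by
  have ha : 0 < aa m := aa_pos' hm
  have ha1 : 2 * aa m ≤ 1 := two_aa_le hm
  have hQc := contDiff_profile hQ
  obtain ⟨B, hB0, hB⟩ := symN_of_symbol (δ := 2 * aa m) hQc hQ.symbol (nd (E d) K + 2)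
  obtain ⟨C, hC, h⟩ := frameErr_bound ha ha1 hQc K hB
  refine ⟨C, hC, ?_⟩
  intro ℓ al ga P be v hℓ hℓh hP hξP hKP
  have hℓ1 : ℓ ≤ 1 := by linarith
  have hP0 : 0 ≤ P := (norm_nonneg _).trans hξP
  have hK0 : (0 : ℝ) ≤ K := by positivity
  have hP1 : P ≤ 1 / 2 := by nlinarith
  have hmu : |-ga / 2| = |ga / 2| := by rw [neg_div, abs_neg]
  have hP' : |-ga / 2| + |al - ga * w| ≤ P := by rw [hmu]; exact hP
  have hμP : |-ga / 2| ≤ P := by linarith [abs_nonneg (al - ga * w)]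
  have hξP' : ‖(-(WithLp.toLp 2 be : E d))‖ ≤ P := by rw [norm_neg]; exact hξP
  have hexp : Real.exp (-ga / 2) ≤ 2 :=
    (Real.exp_le_exp.2 (by have := (abs_le.1 hμP).2; linarith)).trans exp_half_le
  have hν1 : ℓ * Real.exp (-ga / 2) ≤ 1 := by nlinarith [Real.exp_pos (-ga / 2)]
  obtain ⟨s5, n5⟩ := h ℓ (-ga / 2) (al - ga * w) (-(WithLp.toLp 2 be : E d)) P hℓ hℓ1 hP' hξP'
    (by linarith)
  have hid := frame_identity hm hQc (hB.mono (by omega) le_rfl le_rfl) hℓ hℓ1 hν1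
    (hξP'.trans (by linarith)) v s5
  rw [hid, Nn_toFrame m (Real.exp_pos _)]
  refine (Nn_rescale hm hμP hKP hℓ hℓ1 hν1 _).trans (mul_le_mul_of_nonneg_left ?_ (by norm_num))
  refine (Nn_add_le hℓ.le hℓ1 le_rfl _ _).trans (add_le_add (le_of_eq ?_) n5)
  congr 3
  funext y
  rw [modeOf_eq]

end Vale.Agent.P139.H510
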