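import Vale.Agent.P139.H510.RC6

/-!
# P139 / H510 : frame calculus, part 7

The one-step estimate `Step1` implies the invariance `StepStable` of a neighbourhood of the family
of cut-off profiles.
-/

open scoped ContDiff ComplexConjugate FourierTransform
open Set MeasureTheory

namespace Vale.Agent.P139.H510

open Vale.Agent.P139.A Vale.Agent.P139.A.WA Vale.Agent.P139.BU Vale.Agent.P139.N
  Vale.Agent.P139.H201 Vale.Agent.P139.H605

variable {d : ℕ}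

theorem norm_toLp_le (be : Fin d → ℝ) : ‖(WithLp.toLp 2 be : E d)‖ ≤ ∑ i, |be i| := by
  have h2 : (WithLp.toLp 2 be : E d) = ∑ j, be j • EuclideanSpace.single j (1 : ℝ) := by
    ext i
    simp [Pi.single_apply]
  rw [h2]
  refine (norm_sum_le _ _).trans (Finset.sum_le_sum fun i _ => ?_)
  rw [norm_smul, PiLp.norm_single, norm_one, mul_one, Real.norm_eq_abs]

/-- The size of the change of frame is controlled by the size of the mode. -/
theorem frame_size {w al ga S : ℝ} {be : Fin d → ℝ} (h : |al| + ∑ i, |be i| + |ga| ≤ S) :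
    |ga / 2| + |al - ga * w| ≤ (1 + |w|) * S ∧
      ‖(WithLp.toLp 2 be : E d)‖ ≤ (1 + |w|) * S := by
  have hb : 0 ≤ ∑ i, |be i| := Finset.sum_nonneg fun i _ => abs_nonneg _
  have ha := abs_nonneg al
  have hg := abs_nonneg ga
  have hw := abs_nonneg w
  have hS : 0 ≤ S := by linarith
  constructor
  · have e1 : |ga / 2| = |ga| / 2 := by rw [abs_div]; norm_num
    have e2 : |al - ga * w| ≤ |al| + |ga| * |w| := by
      refine (abs_sub _ _).trans ?_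
      rw [abs_mul]
    rw [e1]
    have e3 : |ga| * |w| ≤ S * |w| := mul_le_mul_of_nonneg_right (by linarith) hw
    nlinarith
  · refine (norm_toLp_le be).trans ?_
    nlinarith

/-- The choice of the constants. -/
theorem exp_small {C₁ δ : ℝ} (hC : 0 < C₁) (hδ : 0 < δ) :
    ∃ A : ℝ, 3 ≤ A ∧ C₁ * Real.exp (-δ * A) ≤ 1 / 16 := by
  refine ⟨max 3 (Real.log (16 * C₁) / δ), le_max_left _ _, ?_⟩
  have h1 : Real.log (16 * C₁) / δ ≤ max 3 (Real.log (16 * C₁) / δ) := le_max_right _ _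
  have h2 : Real.log (16 * C₁) ≤ max 3 (Real.log (16 * C₁) / δ) * δ := (div_le_iff₀ hδ).1 h1
  have h3 : Real.exp (-δ * max 3 (Real.log (16 * C₁) / δ)) ≤ Real.exp (-Real.log (16 * C₁)) :=
    Real.exp_le_exp.2 (by linarith)
  rw [Real.exp_neg, Real.exp_log (by positivity)] at h3
  calc C₁ * Real.exp (-δ * max 3 (Real.log (16 * C₁) / δ)) ≤ C₁ * (16 * C₁)⁻¹ :=
        mul_le_mul_of_nonneg_left h3 hC.le
    _ = 1 / 16 := by field_simp

theorem exp_neg_one_le : Real.exp (-1) ≤ 1 / 2 := by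
  have h := Real.add_one_le_exp (1 : ℝ)
  have h2 : Real.exp (-1) * Real.exp 1 = 1 := by rw [← Real.exp_add]; simp
  nlinarith [Real.exp_pos (-1 : ℝ)]

/-- The choice of the size of the neighbourhood. -/
theorem eta_exists {ηA q C Z : ℝ} (K : ℕ) (h1 : 0 < ηA) (h2 : 0 < q) (h3 : 0 < C) (h4 : 0 < Z) :
    ∃ η : ℝ, 0 < η ∧ η ≤ ηA ∧ 2 * η < q ∧ 8 * C * Z ^ 2 * η ≤ 1 ∧
      ((K : ℝ) + 1) * (Z * η) ≤ 1 / 2 := by
  refine ⟨min (min ηA (q / 4)) (min (1 / (8 * C * Z ^ 2)) (1 / (2 * (((K : ℝ) + 1) * Z)))),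
    by positivity, (min_le_left _ _).trans (min_le_left _ _), ?_, ?_, ?_⟩
  · have : min (min ηA (q / 4)) (min (1 / (8 * C * Z ^ 2)) (1 / (2 * (((K : ℝ) + 1) * Z))))
        ≤ q / 4 := (min_le_left _ _).trans (min_le_right _ _)
    linarith
  · have : min (min ηA (q / 4)) (min (1 / (8 * C * Z ^ 2)) (1 / (2 * (((K : ℝ) + 1) * Z))))
        ≤ 1 / (8 * C * Z ^ 2) := (min_le_right _ _).trans (min_le_left _ _)
    have h9 := (le_div_iff₀ (by positivity)).1 this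
    linarith
  · have : min (min ηA (q / 4)) (min (1 / (8 * C * Z ^ 2)) (1 / (2 * (((K : ℝ) + 1) * Z))))
        ≤ 1 / (2 * (((K : ℝ) + 1) * Z)) := (min_le_right _ _).trans (min_le_right _ _)
    have h9 := (le_div_iff₀ (by positivity)).1 this
    linarith

/-- The new scale is at most one half of the old one. -/
theorem scale_half {A ga P ℓ : ℝ} (hA : 3 ≤ A) (hga : |ga / 2| ≤ P) (hP : P ≤ 1 / 2)
    (hℓ : 0 < ℓ) : ℓ * Real.exp (-A / 2) * Real.exp (-ga / 2) ≤ ℓ / 2 := by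
  rw [mul_assoc, ← Real.exp_add]
  have h9 : -A / 2 + -ga / 2 ≤ -1 := by
    have := (abs_le.1 hga).1
    linarith
  have h10 := (Real.exp_le_exp.2 h9).trans exp_neg_one_le
  have := mul_le_mul_of_nonneg_left h10 hℓ.le
  linarith

/-- The final estimate. -/
theorem final_arith {X M C₁' C Z η ℓ ℓ' : ℝ} (hX : X ≤ 2 * (M + C * ((Z * η) ^ 2 + Z * η * ℓ')))
    (hM : M ≤ (C₁' + 1 / 16) * η) (hC₁ : C₁' ≤ 1 / 16) (hC : 0 < C) (hZ : 0 < Z) (hη : 0 < η)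
    (h3 : 8 * C * Z ^ 2 * η ≤ 1) (hℓZ : 8 * C * Z * ℓ ≤ 1) (hℓ : ℓ' ≤ ℓ) : X ≤ η := by
  have h11 : (C₁' + 1 / 16) * η ≤ (1 / 8) * η :=
    mul_le_mul_of_nonneg_right (by linarith) hη.le
  have h12 : 8 * C * Z ^ 2 * η * η ≤ 1 * η := mul_le_mul_of_nonneg_right h3 hη.le
  have h14 : 8 * C * Z * ℓ * η ≤ 1 * η := mul_le_mul_of_nonneg_right hℓZ hη.le
  have h15 : C * (Z * η * ℓ') ≤ C * (Z * η * ℓ) :=
    mul_le_mul_of_nonneg_left (mul_le_mul_of_nonneg_left hℓ (by positivity)) hC.le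
  have e1 : C * ((Z * η) ^ 2 + Z * η * ℓ') = (8 * C * Z ^ 2 * η * η) / 8 + C * (Z * η * ℓ') := by
    ring
  have e2 : C * (Z * η * ℓ) = (8 * C * Z * ℓ * η) / 8 := by ring
  linarith

/-- The one-step estimate implies the invariance. -/
theorem stepStable_of_step1 {m : ℕ} (hm : 1 ≤ m) {w : ℝ} {Q : E d → ℂ} (hQ : IsProfile d m w Q)
    (h : Step1 d m w Q) : StepStable d m w Q := by
  obtain ⟨K, C₁, δ, hC₁, hδ, h⟩ := h
  obtain ⟨C, hC, hfr⟩ := frame_change hm hQ K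
  obtain ⟨A, hA3, hA⟩ := exp_small hC₁ hδ
  obtain ⟨CA, hCA, h⟩ := h A (by linarith)
  obtain ⟨ηA, hηA, h⟩ := h (1 / 16) (by norm_num)
  obtain ⟨Z, hZ⟩ : ∃ Z : ℝ, Z = (1 + |w|) * CA := ⟨_, rfl⟩
  have hw := abs_nonneg w
  have hZ0 : 0 < Z := by rw [hZ]; positivity
  obtain ⟨η, hη, h1, h2, h3, h4⟩ := eta_exists K hηA (norm_pos_iff.2 (hQ.ne_zero 0)) hC hZ0
  obtain ⟨ℓA, hℓA, hℓA1, h⟩ := h η hη h1
  refine ⟨K, A, η, min ℓA (1 / (8 * C * Z)), by linarith, hη, h2, by positivity, ?_⟩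
  intro ℓ v hℓ hℓ1 hv hv0
  have hℓA' : ℓ ≤ ℓA := hℓ1.trans (min_le_left _ _)
  have hℓZ : 8 * C * Z * ℓ ≤ 1 := by
    have := (le_div_iff₀ (by positivity)).1 (hℓ1.trans (min_le_right _ _))
    linarith
  obtain ⟨al, be, ga, hsize, hest⟩ := h ℓ v hℓ hℓA' hv hv0
  obtain ⟨hP, hξP⟩ := frame_size (w := w) hsize
  have hPZ : (1 + |w|) * (CA * η) = Z * η := by rw [hZ]; ring
  rw [hPZ] at hP hξP
  have hexpA : Real.exp (-A / 2) ≤ 1 / 2 :=
    (Real.exp_le_exp.2 (by linarith)).trans exp_neg_one_le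
  have hexpA0 := Real.exp_pos (-A / 2)
  obtain ⟨ℓ', hℓ'⟩ : ∃ ℓ' : ℝ, ℓ' = ℓ * Real.exp (-A / 2) := ⟨_, rfl⟩
  rw [← hℓ'] at hest ⊢
  have hℓ'0 : 0 < ℓ' := by rw [hℓ']; exact mul_pos hℓ hexpA0
  have hmul := mul_le_mul_of_nonneg_left hexpA hℓ.le
  have hℓ'h : ℓ' ≤ 1 / 2 := by rw [hℓ']; linarith
  have hℓ'ℓ : ℓ' ≤ ℓ := by rw [hℓ']; linarith
  have hfin := hfr ℓ' al ga (Z * η) be (v A) hℓ'0 hℓ'h hP hξP h4
  refine ⟨ℓ' * Real.exp (-ga / 2), WithLp.ofLp (ℓ' • (-(WithLp.toLp 2 be : E d))), al - ga * w,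
    mul_pos hℓ'0 (Real.exp_pos _), ?_, ?_⟩
  · rw [hℓ']
    have hZη : 0 < Z * η := mul_pos hZ0 hη
    have hK0 : (0 : ℝ) ≤ K * (Z * η) := mul_nonneg (Nat.cast_nonneg _) hZη.le
    exact scale_half (P := Z * η) hA3 (by linarith [abs_nonneg (al - ga * w)]) (by linarith) hℓ
  · rw [show ℓ' * Real.exp (-ga / 2) / ℓ' = Real.exp (-ga / 2) by field_simp]
    exact final_arith hfin hest hA hC hZ0 hη h3 hℓZ hℓ'ℓ

end Vale.Agent.P139.H510
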